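import Vale.Agent.P015.Sieve

/-!
# P015: counting the positions on a line near which a long walk survives the sieve
-/

namespace Vale.Agent.P015

open Finset

lemma norm_real (z : GaussianInt) : (z.norm : ℝ) = ‖GaussianInt.toComplex z‖ ^ 2 := by
  rw [GaussianInt.intCast_real_norm, Complex.normSq_eq_norm_sq]

/-- finite balls -/
noncomputable def ball (R : ℝ) : Finset GaussianInt :=
  ((Finset.Icc (-⌊R⌋) ⌊R⌋ ×ˢ Finset.Icc (-⌊R⌋) ⌊R⌋).image
    (fun a : ℤ × ℤ => (⟨a.1, a.2⟩ : GaussianInt))).filter (fun z => ‖GaussianInt.toComplex z‖ ≤ R)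

lemma mem_ball {R : ℝ} {z : GaussianInt} : z ∈ ball R ↔ ‖GaussianInt.toComplex z‖ ≤ R := by
  unfold ball
  rw [Finset.mem_filter, Finset.mem_image]
  refine ⟨fun h => h.2, fun h => ⟨⟨(z.re, z.im), ?_, rfl⟩, h⟩⟩
  have h1 : |(z.re : ℝ)| ≤ R := by
    rw [GaussianInt.intCast_re]
    exact (Complex.abs_re_le_norm _).trans h
  have h2 : |(z.im : ℝ)| ≤ R := by
    rw [GaussianInt.intCast_im]
    exact (Complex.abs_im_le_norm _).trans h
  rw [abs_le] at h1 h2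
  rw [Finset.mem_product, Finset.mem_Icc, Finset.mem_Icc]
  have a1 : z.re ≤ ⌊R⌋ := Int.le_floor.2 h1.2
  have a2 : -z.re ≤ ⌊R⌋ := Int.le_floor.2 (by push_cast; linarith)
  have a3 : z.im ≤ ⌊R⌋ := Int.le_floor.2 h2.2
  have a4 : -z.im ≤ ⌊R⌋ := Int.le_floor.2 (by push_cast; linarith)
  simp only
  omega

lemma card_ball {R : ℝ} (hR : 0 ≤ R) : ((ball R).card : ℝ) ≤ (2 * R + 1) ^ 2 := by
  have h0 : 0 ≤ ⌊R⌋ := Int.floor_nonneg.2 hR
  have h1 : (ball R).card ≤ ((Finset.Icc (-⌊R⌋) ⌊R⌋ ×ˢ Finset.Icc (-⌊R⌋) ⌊R⌋)).card :=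
    (Finset.card_filter_le _ _).trans Finset.card_image_le
  rw [Finset.card_product, Int.card_Icc] at h1
  have h2 : (((⌊R⌋ + 1 - -⌊R⌋).toNat : ℕ) : ℝ) ≤ 2 * R + 1 := by
    have h3 : (((⌊R⌋ + 1 - -⌊R⌋).toNat : ℕ) : ℤ) = 2 * ⌊R⌋ + 1 := by omega
    have h4 : (((⌊R⌋ + 1 - -⌊R⌋).toNat : ℕ) : ℝ) = 2 * (⌊R⌋ : ℝ) + 1 := by exact_mod_cast h3
    rw [h4]
    have := Int.floor_le R
    linarith
  calc ((ball R).card : ℝ) ≤ (((⌊R⌋ + 1 - -⌊R⌋).toNat * (⌊R⌋ + 1 - -⌊R⌋).toNat : ℕ) : ℝ) := by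
        exact_mod_cast h1
    _ = (((⌊R⌋ + 1 - -⌊R⌋).toNat : ℕ) : ℝ) ^ 2 := by push_cast; ring
    _ ≤ (2 * R + 1) ^ 2 := pow_le_pow_left₀ (Nat.cast_nonneg _) h2 2

/-- bad residues modulo one prime -/
lemma residues {p : ℕ} (hp : p.Prime) (h4 : p % 4 = 1) {w : GaussianInt} (hw : ¬ (p : ℤ) ∣ w.norm)
    (X : Finset GaussianInt) (hX : ∀ x ∈ X, ∀ y ∈ X, (x - y).norm < p) :
    ∃ B : Finset ℕ, B ⊆ range p ∧ B.card = X.card ∧ ∀ k : ℤ, (k % (p : ℤ)).toNat ∈ B →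
      ∃ x ∈ X, (p : ℤ) ∣ (x + (k : GaussianInt) * w).norm := by
  classical
  have : Fact p.Prime := ⟨hp⟩
  have : NeZero p := ⟨hp.ne_zero⟩
  obtain ⟨t, ht⟩ : ∃ t : ZMod p, t ^ 2 = -1 := by
    have h1 : IsSquare (-1 : ZMod p) := (ZMod.exists_sq_eq_neg_one_iff).2 (by omega)
    obtain ⟨t, ht⟩ := h1
    exact ⟨t, by rw [sq, ← ht]⟩
  have hw0 : phi p t w ≠ 0 := fun h => hw (dvd_norm_of_phi ht h)
  refine ⟨X.image (fun x => (-(phi p t x) / phi p t w).val), ?_, ?_, ?_⟩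
  · intro r hr
    rw [Finset.mem_image] at hr
    obtain ⟨x, _, rfl⟩ := hr
    exact Finset.mem_range.2 (ZMod.val_lt _)
  · refine Finset.card_image_of_injOn ?_
    intro x hx y hy hxy
    simp only at hxy
    have h1 := ZMod.val_injective p hxy
    rw [div_left_inj' hw0, neg_inj] at h1
    have h2 : phi p t (x - y) = 0 := by rw [phi_sub, h1, sub_self]
    have h3 := dvd_norm_of_phi ht h2
    have h4 := hX x hx y hy
    have h5 := GaussianInt.norm_nonneg (x - y)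
    have h6 : (x - y).norm = 0 := Int.eq_zero_of_dvd_of_nonneg_of_lt h5 h4 h3
    exact sub_eq_zero.1 (GaussianInt.norm_eq_zero.1 h6)
  · intro k hk
    rw [Finset.mem_image] at hk
    obtain ⟨x, hx, hxk⟩ := hk
    refine ⟨x, hx, dvd_norm_of_phi ht ?_⟩
    rw [phi_add, phi_mul_int]
    have h1 : ((k : ℤ) : ZMod p) = -(phi p t x) / phi p t w := by
      have h2 : ((((k % (p : ℤ)).toNat : ℕ) : ℤ) : ZMod p) = (k : ZMod p) := by
        have hp0 : (0:ℤ) < p := by exact_mod_cast hp.pos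
        rw [Int.toNat_of_nonneg (Int.emod_nonneg k hp0.ne')]
        exact ZMod.intCast_mod k p
      rw [← h2, ← hxk, Int.cast_natCast, ZMod.natCast_val, ZMod.cast_id', id]
    rw [h1]
    field_simp
    simp

/-- hypotheses on the sifting set -/
structure Sift (Q : Finset ℕ) (w : GaussianInt) (M : ℝ) : Prop where
  prime : ∀ p ∈ Q, p.Prime
  split : ∀ p ∈ Q, p % 4 = 1
  large : ∀ p ∈ Q, M ^ 2 < p
  cop : ∀ p ∈ Q, ¬ (p : ℤ) ∣ w.norm

lemma count_set {Q : Finset ℕ} {w : GaussianInt} {M : ℝ} (hQ : Sift Q w M) {n : ℕ}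
    (X : Finset GaussianInt) (hn : n ≤ X.card) (hX : ∀ x ∈ X, ∀ y ∈ X, ‖GaussianInt.toComplex (x - y)‖ ≤ M) (K₀ : ℤ) :
    ((Finset.Ico K₀ (K₀ + ((∏ p ∈ Q, p : ℕ) : ℤ))).filter
      (fun k : ℤ => ∀ x ∈ X, ∀ p ∈ Q, ¬ (p : ℤ) ∣ (x + (k : GaussianInt) * w).norm)).card ≤
      ∏ p ∈ Q, (p - n) := by
  classical
  have hex : ∀ p ∈ Q, ∃ B : Finset ℕ, B ⊆ range p ∧ B.card = X.card ∧
      ∀ k : ℤ, (k % (p : ℤ)).toNat ∈ B → ∃ x ∈ X, (p : ℤ) ∣ (x + (k : GaussianInt) * w).norm := by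
    intro p hp
    refine residues (hQ.prime p hp) (hQ.split p hp) (hQ.cop p hp) X fun x hx y hy => ?_
    have h1 : ((x - y).norm : ℝ) < p := by
      rw [norm_real]
      refine lt_of_le_of_lt ?_ (hQ.large p hp)
      exact pow_le_pow_left₀ (norm_nonneg _) (hX x hx y hy) 2
    exact_mod_cast h1
  choose! B hB1 hB2 hB3 using hex
  refine le_trans (Finset.card_le_card ?_) (sieve_count Q hQ.prime n B
    (fun p hp => ⟨hB1 p hp, by rw [hB2 p hp]; exact hn⟩) K₀)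
  intro k hk
  rw [Finset.mem_filter] at hk ⊢
  refine ⟨hk.1, fun p hp hmem => ?_⟩
  obtain ⟨x, hx, hd⟩ := hB3 p hp k hmem
  exact hk.2 x hx p hp hd

/-- positions of a walk with steps `σ` -/
def pos {m : ℕ} (σ : Fin m → GaussianInt) (i : ℕ) : GaussianInt :=
  ∑ j : Fin m, if (j : ℕ) < i then σ j else 0

lemma pos_diff {m : ℕ} {σ : Fin m → GaussianInt} {D : ℝ} (hD : 0 ≤ D)
    (hσ : ∀ j, ‖GaussianInt.toComplex (σ j)‖ ≤ D) (i i' : ℕ) : ‖GaussianInt.toComplex (pos σ i - pos σ i')‖ ≤ m * D := by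
  unfold pos
  rw [← Finset.sum_sub_distrib, map_sum]
  refine (norm_sum_le _ _).trans ?_
  calc ∑ j : Fin m, ‖GaussianInt.toComplex ((if (j : ℕ) < i then σ j else 0) - if (j : ℕ) < i' then σ j else 0)‖
      ≤ ∑ _j : Fin m, D := by
        refine Finset.sum_le_sum fun j _ => ?_
        split_ifs
        · simpa using hD
        · simpa using hσ j
        · rw [zero_sub, map_neg, norm_neg]; exact hσ j
        · simpa using hD
    _ = m * D := by rw [Finset.sum_const, Finset.card_univ, Fintype.card_fin, nsmul_eq_mul]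

lemma pos_eq {m : ℕ} (g : ℕ → GaussianInt) {i : ℕ} (hi : i ≤ m) :
    pos (fun j : Fin m => g (j + 1) - g j) i = g i - g 0 := by
  unfold pos
  have h1 := Fin.sum_univ_eq_sum_range (fun j : ℕ => if j < i then g (j + 1) - g j else 0) m
  rw [h1, ← Finset.sum_filter]
  have h2 : (range m).filter (fun j => j < i) = range i := by
    ext j
    rw [Finset.mem_filter, Finset.mem_range, Finset.mem_range]
    omega
  rw [h2, Finset.sum_range_sub]

/-- a walk with `2 n` steps of length at most `D`, starting within `H` of `c`, that visits at least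
`n` points and survives the sieve -/
def BadAt (Q : Finset ℕ) (D H : ℝ) (n : ℕ) (c : GaussianInt) : Prop :=
  ∃ g : ℕ → GaussianInt, ‖GaussianInt.toComplex (g 0 - c)‖ ≤ H ∧ (∀ i, ‖GaussianInt.toComplex (g (i + 1) - g i)‖ ≤ D) ∧
    (∃ A : Finset GaussianInt, n ≤ A.card ∧ ∀ a ∈ A, ∃ i < 2 * n, g i = a) ∧
    ∀ i < 2 * n, ∀ p ∈ Q, ¬ (p : ℤ) ∣ (g i).norm

open Classical in
theorem bad_count {Q : Finset ℕ} {w : GaussianInt} {n : ℕ} {D H : ℝ} (hD : 0 ≤ D)
    (hQ : Sift Q w ((2 * n : ℕ) * D)) (z₀ : GaussianInt) (K₀ : ℤ) :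
    ((Finset.Ico K₀ (K₀ + ((∏ p ∈ Q, p : ℕ) : ℤ))).filter
      (fun k : ℤ => BadAt Q D H n (z₀ + (k : GaussianInt) * w))).card ≤
      (ball H).card * (ball D).card ^ (2 * n) * ∏ p ∈ Q, (p - n) := by
  classical
  obtain ⟨I, hI⟩ : ∃ I, I = Finset.Ico K₀ (K₀ + ((∏ p ∈ Q, p : ℕ) : ℤ)) := ⟨_, rfl⟩
  obtain ⟨Sh, hSh⟩ : ∃ Sh : Finset (GaussianInt × (Fin (2 * n) → GaussianInt)),
    Sh = ball H ×ˢ Fintype.piFinset (fun _ : Fin (2 * n) => ball D) := ⟨_, rfl⟩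
  have hShc : Sh.card = (ball H).card * (ball D).card ^ (2 * n) := by
    rw [hSh, Finset.card_product, Fintype.card_piFinset, Finset.prod_const, Finset.card_univ,
      Fintype.card_fin]
  -- the set of points of a shape
  obtain ⟨X, hXdef⟩ : ∃ X : GaussianInt × (Fin (2 * n) → GaussianInt) → Finset GaussianInt,
    X = fun a => (range (2 * n)).image (fun i => z₀ + a.1 + pos a.2 i) := ⟨_, rfl⟩
  have hsub : I.filter (fun k : ℤ => BadAt Q D H n (z₀ + (k : GaussianInt) * w)) ⊆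
      (Sh.filter (fun a => n ≤ (X a).card)).biUnion (fun a => I.filter
        (fun k : ℤ => ∀ x ∈ X a, ∀ p ∈ Q, ¬ (p : ℤ) ∣ (x + (k : GaussianInt) * w).norm)) := by
    intro k hk
    rw [Finset.mem_filter] at hk
    obtain ⟨hkI, g, hg0, hg1, ⟨A, hA, hAg⟩, hg2⟩ := hk
    rw [Finset.mem_biUnion]
    obtain ⟨a, ha⟩ : ∃ a : GaussianInt × (Fin (2 * n) → GaussianInt),
      a = (g 0 - (z₀ + (k : GaussianInt) * w), fun j : Fin (2 * n) => g (j + 1) - g j) := ⟨_, rfl⟩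
    have hpt : ∀ i < 2 * n, z₀ + a.1 + pos a.2 i = g i - (k : GaussianInt) * w := by
      intro i hi
      rw [ha]
      simp only
      rw [pos_eq g hi.le]
      ring
    refine ⟨a, ?_, ?_⟩
    · rw [Finset.mem_filter]
      refine ⟨?_, ?_⟩
      · rw [hSh, Finset.mem_product, Fintype.mem_piFinset, ha]
        exact ⟨mem_ball.2 hg0, fun j => mem_ball.2 (hg1 j)⟩
      · refine hA.trans ?_
        have h1 : (A.image (fun x => x - (k : GaussianInt) * w)).card = A.card :=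
          Finset.card_image_of_injective _ (sub_left_injective)
        rw [← h1]
        refine Finset.card_le_card ?_
        intro y hy
        rw [Finset.mem_image] at hy
        obtain ⟨x, hx, rfl⟩ := hy
        obtain ⟨i, hi, rfl⟩ := hAg x hx
        rw [hXdef]
        exact Finset.mem_image.2 ⟨i, Finset.mem_range.2 hi, hpt i hi⟩
    · rw [Finset.mem_filter]
      refine ⟨hkI, fun x hx p hp => ?_⟩
      rw [hXdef] at hx
      obtain ⟨i, hi, rfl⟩ := Finset.mem_image.1 hx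
      rw [Finset.mem_range] at hi
      rw [hpt i hi, sub_add_cancel]
      exact hg2 i hi p hp
  rw [← hI]
  refine (Finset.card_le_card hsub).trans (Finset.card_biUnion_le.trans ?_)
  have hterm : ∀ a ∈ Sh.filter (fun a => n ≤ (X a).card), (I.filter
        (fun k : ℤ => ∀ x ∈ X a, ∀ p ∈ Q, ¬ (p : ℤ) ∣ (x + (k : GaussianInt) * w).norm)).card ≤
        ∏ p ∈ Q, (p - n) := by
    intro a ha
    rw [Finset.mem_filter] at ha
    rw [hI]
    refine count_set hQ (X a) ha.2 ?_ K₀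
    have ha1 := ha.1
    rw [hSh, Finset.mem_product, Fintype.mem_piFinset] at ha1
    intro x hx y hy
    rw [hXdef] at hx hy
    obtain ⟨i, _, rfl⟩ := Finset.mem_image.1 hx
    obtain ⟨j, _, rfl⟩ := Finset.mem_image.1 hy
    have h1 : z₀ + a.1 + pos a.2 i - (z₀ + a.1 + pos a.2 j) = pos a.2 i - pos a.2 j := by ring
    rw [h1]
    exact pos_diff hD (fun j => mem_ball.1 (ha1.2 j)) i j
  refine (Finset.sum_le_card_nsmul _ _ _ hterm).trans ?_
  rw [smul_eq_mul, ← hShc]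
  exact Nat.mul_le_mul_right _ (Finset.card_filter_le _ _)

end Vale.Agent.P015
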