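import Mathlib

/-!
# P015: the graph of Gaussian primes
-/

namespace Vale.Agent.P015

/-- The Gaussian primes. -/
abbrev GP : Type := {z : GaussianInt // Prime z}

/-- Euclidean distance of two Gaussian integers. -/
noncomputable def edist (z w : GaussianInt) : ℝ :=
  ‖GaussianInt.toComplex z - GaussianInt.toComplex w‖

/-- The graph `G_D`: distinct Gaussian primes at distance at most `D` are joined. -/
def GD (D : ℝ) : SimpleGraph GP where
  Adj z w := z ≠ w ∧ edist z.1 w.1 ≤ D
  symm := ⟨fun z w h => by
    refine ⟨h.1.symm, ?_⟩
    have := h.2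
    unfold edist at this ⊢
    rwa [norm_sub_rev]⟩
  loopless := ⟨fun z h => h.1 rfl⟩

/-- The vertex set of the connected component of `z` in `G_D`. -/
def comp (D : ℝ) (z : GP) : Set GP := {w | (GD D).Reachable z w}

/-- Length coordinate of `z` along the line through `z₀` and `z₀ + w`. -/
noncomputable def along (z₀ w z : GaussianInt) : ℝ :=
  ((GaussianInt.toComplex z - GaussianInt.toComplex z₀) *
    (starRingEnd ℂ) (GaussianInt.toComplex w)).re / ‖GaussianInt.toComplex w‖

/-- Signed distance of `z` from the line through `z₀` and `z₀ + w`. -/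
noncomputable def away (z₀ w z : GaussianInt) : ℝ :=
  ((GaussianInt.toComplex z - GaussianInt.toComplex z₀) *
    (starRingEnd ℂ) (GaussianInt.toComplex w)).im / ‖GaussianInt.toComplex w‖

end Vale.Agent.P015
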