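import Mathlib

/-!
# P015: closed walks visiting many vertices
-/

namespace Vale.Agent.P015

open Finset

/-- In a component with at least `n` vertices there is a closed walk of length at most `2 (n-1)`
from any vertex which visits at least `n` vertices. -/
theorem exists_closed_walk {V : Type*} (G : SimpleGraph V) (z : V) (n : ℕ)
    (T : Finset V) (hT : ∀ v ∈ T, G.Reachable z v) (hn : n ≤ T.card) (h1 : 1 ≤ n) :
    ∃ p : G.Walk z z, p.length ≤ 2 * (n - 1) ∧ ∃ A : Finset V, n ≤ A.card ∧
      ∀ v ∈ A, v ∈ p.support := by
  classical
  induction n, h1 using Nat.le_induction with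
  | base => exact ⟨SimpleGraph.Walk.nil, by simp, {z}, by simp, by simp⟩
  | succ n h1 ih =>
    obtain ⟨p, hp, A, hA, hAp⟩ := ih (by omega)
    by_cases hc : n + 1 ≤ p.support.toFinset.card
    · exact ⟨p, by omega, p.support.toFinset, hc, fun v hv => List.mem_toFinset.1 hv⟩
    · push Not at hc
      obtain ⟨v, hv, hvs⟩ : ∃ v ∈ T, v ∉ p.support.toFinset := by
        by_contra hcon
        push Not at hcon
        have := Finset.card_le_card (s := T) (t := p.support.toFinset) hcon
        omega
      obtain ⟨q⟩ := hT v hv
      obtain ⟨d, _, hd1, hd2⟩ := q.exists_boundary_dart {x | x ∈ p.support}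
        (p.start_mem_support) (by
          intro h
          exact hvs (List.mem_toFinset.2 h))
      have hd1' : d.fst ∈ p.support := hd1
      have hd2' : d.snd ∉ p.support := hd2
      refine ⟨(p.takeUntil d.fst hd1').append (SimpleGraph.Walk.cons d.adj
        (SimpleGraph.Walk.cons d.adj.symm (p.dropUntil d.fst hd1'))), ?_,
        insert d.snd A, ?_, ?_⟩
      · have h2 : (p.takeUntil d.fst hd1').length + (p.dropUntil d.fst hd1').length = p.length := by
          rw [← SimpleGraph.Walk.length_append, SimpleGraph.Walk.take_spec]
        rw [SimpleGraph.Walk.length_append, SimpleGraph.Walk.length_cons,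
          SimpleGraph.Walk.length_cons]
        omega
      · rw [Finset.card_insert_of_notMem (fun h => hd2' (hAp _ h))]
        omega
      · intro x hx
        rw [SimpleGraph.Walk.mem_support_append_iff, SimpleGraph.Walk.support_cons,
          SimpleGraph.Walk.support_cons]
        rcases Finset.mem_insert.1 hx with rfl | hx
        · right
          simp
        · have h3 := hAp x hx
          rw [← p.take_spec hd1', SimpleGraph.Walk.mem_support_append_iff] at h3
          rcases h3 with h3 | h3
          · exact Or.inl h3
          · right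
            simp [h3]

/-- the same as a function on the natural numbers -/
theorem exists_seq {V : Type*} (G : SimpleGraph V) (z : V) (n : ℕ)
    (T : Finset V) (hT : ∀ v ∈ T, G.Reachable z v) (hn : n ≤ T.card) (h1 : 1 ≤ n) :
    ∃ g : ℕ → V, g 0 = z ∧ (∀ i, g i = g (i + 1) ∨ G.Adj (g i) (g (i + 1))) ∧
      ∃ A : Finset V, n ≤ A.card ∧ ∀ v ∈ A, ∃ i < 2 * n, g i = v := by
  obtain ⟨p, hp, A, hA, hAp⟩ := exists_closed_walk G z n T hT hn h1
  refine ⟨p.getVert, p.getVert_zero, fun i => ?_, A, hA, fun v hv => ?_⟩
  · rcases lt_or_ge i p.length with h | h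
    · exact Or.inr (p.adj_getVert_succ h)
    · left
      rw [p.getVert_of_length_le h, p.getVert_of_length_le (by omega)]
  · obtain ⟨i, hi, hi2⟩ := SimpleGraph.Walk.mem_support_iff_exists_getVert.1 (hAp v hv)
    exact ⟨i, by omega, hi⟩

end Vale.Agent.P015
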