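import Vale.Agent.P015.Mertens
import Vale.Agent.P015.Count
import Vale.Agent.P015.Walk
import Vale.Agent.P015.Defs

/-!
# P015: exponential decay of the sizes of the components, along lines
-/

namespace Vale.Agent.P015

open Finset

/-- a sifting set which beats the entropy of walks -/
theorem good_sift {D A : ℝ} (hD : 0 ≤ D) (hA : 0 ≤ A) : ∃ B n₀ : ℕ, 1 ≤ B ∧ 2 ≤ n₀ ∧
    ∀ n : ℕ, n₀ ≤ n → ∃ Q : Finset ℕ,
      (∀ w : GaussianInt, w ≠ 0 → w.norm ≤ (n : ℤ) ^ 3 → Sift Q w ((2 * n : ℕ) * D)) ∧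
      (∀ p ∈ Q, p ≤ n ^ B) ∧ (∏ p ∈ Q, p) ≤ 4 ^ (n ^ B) ∧ 0 < ∏ p ∈ Q, p ∧
      (((ball (Real.exp (A * n))).card * (ball D).card ^ (2 * n) * ∏ p ∈ Q, (p - n) : ℕ) : ℝ) ≤
        Real.exp (-((A + 1) * n)) * ((∏ p ∈ Q, p : ℕ) : ℝ) := by
  obtain ⟨S, hS⟩ : ∃ S : ℕ, S = (ball D).card := ⟨_, rfl⟩
  have hS1 : 1 ≤ S := by
    rw [hS]
    refine Finset.card_pos.2 ⟨0, mem_ball.2 ?_⟩
    simpa using hD
  have hS1' : (1:ℝ) ≤ S := by exact_mod_cast hS1
  obtain ⟨K, hK⟩ : ∃ K : ℝ, K = 2 * Real.log S + 3 * A + 4 := ⟨_, rfl⟩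
  obtain ⟨B, z₀, hB, hz₀, hM⟩ := mertens_one_mod_four K
  obtain ⟨n₁, hn₁⟩ := exists_nat_ge (4 * D ^ 2 + 1)
  refine ⟨3 * B, max z₀ (max n₁ 2), by omega, ?_, fun n hn => ?_⟩
  · exact le_trans (le_max_right _ _) (le_max_right _ _)
  have hnz : z₀ ≤ n := (le_max_left _ _).trans hn
  have hn1 : n₁ ≤ n := ((le_max_left _ _).trans (le_max_right _ _)).trans hn
  have hn2 : 2 ≤ n := ((le_max_right _ _).trans (le_max_right _ _)).trans hn
  have hnR : (2:ℝ) ≤ n := by exact_mod_cast hn2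
  have hn0 : (0:ℝ) < n := by linarith
  have h3 : n ≤ n ^ 3 := Nat.le_self_pow (by norm_num) n
  obtain ⟨Q, hQ⟩ : ∃ Q, Q = PP (n ^ 3) ((n ^ 3) ^ B) := ⟨_, rfl⟩
  have hsum := hM (n ^ 3) (hnz.trans h3)
  rw [← hQ] at hsum
  have hmem : ∀ p ∈ Q, (n ^ 3 < p ∧ p ≤ n ^ (3 * B)) ∧ p.Prime ∧ p % 4 = 1 := by
    intro p hp
    rw [hQ, mem_PP] at hp
    rw [pow_mul]
    exact hp
  refine ⟨Q, ?_, fun p hp => (hmem p hp).1.2, ?_, ?_, ?_⟩
  · intro w hw hwn
    refine ⟨fun p hp => (hmem p hp).2.1, fun p hp => (hmem p hp).2.2, fun p hp => ?_,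
      fun p hp hd => ?_⟩
    · have h4 : ((n ^ 3 : ℕ) : ℝ) < p := by exact_mod_cast (hmem p hp).1.1
      have h5 : 4 * D ^ 2 ≤ n := by
        have : (n₁ : ℝ) ≤ n := by exact_mod_cast hn1
        linarith
      push_cast at h4 ⊢
      calc (2 * (n:ℝ) * D) ^ 2 = (4 * D ^ 2) * (n:ℝ) ^ 2 := by ring
        _ ≤ n * (n:ℝ) ^ 2 := mul_le_mul_of_nonneg_right h5 (by positivity)
        _ = (n:ℝ) ^ 3 := by ring
        _ < p := h4
    · have h4 : (0:ℤ) < w.norm := GaussianInt.norm_pos.2 hw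
      have h5 := Int.le_of_dvd h4 hd
      have h6 : ((n ^ 3 : ℕ) : ℤ) < p := by exact_mod_cast (hmem p hp).1.1
      push_cast at h6
      omega
  · refine le_trans ?_ (primorial_le_four_pow (n ^ (3 * B)))
    unfold primorial
    refine Finset.prod_le_prod_of_subset_of_one_le' ?_ ?_
    · intro p hp
      rw [Finset.mem_filter, Finset.mem_range]
      exact ⟨by have := (hmem p hp).1.2; omega, (hmem p hp).2.1⟩
    · intro p hp _
      rw [Finset.mem_filter] at hp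
      exact hp.2.one_le
  · exact Finset.prod_pos fun p hp => (hmem p hp).2.1.pos
  · -- the main estimate
    have hprod : ((∏ p ∈ Q, (p - n) : ℕ) : ℝ) ≤
        Real.exp (-(n * K)) * ((∏ p ∈ Q, p : ℕ) : ℝ) := by
      have h4 : ((∏ p ∈ Q, (p - n) : ℕ) : ℝ) ≤ ∏ p ∈ Q, (Real.exp (-(n * (1 / (p:ℝ)))) * p) := by
        rw [Nat.cast_prod]
        refine Finset.prod_le_prod (fun p _ => Nat.cast_nonneg _) fun p hp => ?_
        have hp0 : (0:ℝ) < p := by exact_mod_cast (hmem p hp).2.1.pos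
        have hnp : n ≤ p := (h3.trans (hmem p hp).1.1.le)
        rw [Nat.cast_sub hnp]
        have h5 := Real.add_one_le_exp (-(n * (1 / (p:ℝ))))
        have h6 := mul_le_mul_of_nonneg_right h5 hp0.le
        refine le_trans (le_of_eq ?_) h6
        field_simp
        ring
      refine h4.trans ?_
      rw [Finset.prod_mul_distrib, ← Real.exp_sum, Finset.sum_neg_distrib, ← Finset.mul_sum,
        Nat.cast_prod]
      refine mul_le_mul_of_nonneg_right ?_ (Finset.prod_nonneg fun p _ => Nat.cast_nonneg p)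
      rw [Real.exp_le_exp]
      have := mul_le_mul_of_nonneg_left hsum hn0.le
      linarith
    have hball : ((ball (Real.exp (A * n))).card : ℝ) ≤ Real.exp (2 * A * n + 3 * n) := by
      have h4 := card_ball (Real.exp_pos (A * n)).le
      have h5 : (1:ℝ) ≤ Real.exp (A * n) := Real.one_le_exp (by positivity)
      have h6 : (9:ℝ) ≤ Real.exp (3 * n) := by
        have h7 : Real.exp 6 ≤ Real.exp (3 * n) := Real.exp_le_exp.2 (by linarith)
        have h8 : (2:ℝ) ^ 6 ≤ Real.exp 6 := by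
          have h9 := Real.exp_one_gt_d9
          have h10 : Real.exp 6 = Real.exp 1 ^ 6 := by rw [← Real.exp_nat_mul]; norm_num
          rw [h10]
          exact pow_le_pow_left₀ (by norm_num) (by linarith) 6
        norm_num at h8
        linarith
      calc ((ball (Real.exp (A * n))).card : ℝ) ≤ (2 * Real.exp (A * n) + 1) ^ 2 := h4
        _ ≤ (3 * Real.exp (A * n)) ^ 2 := pow_le_pow_left₀ (by positivity) (by linarith) 2
        _ = 9 * Real.exp (2 * A * n) := by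
            rw [mul_pow, ← Real.exp_nat_mul]; norm_num; ring_nf
        _ ≤ Real.exp (3 * n) * Real.exp (2 * A * n) :=
            mul_le_mul_of_nonneg_right h6 (Real.exp_pos _).le
        _ = Real.exp (2 * A * n + 3 * n) := by rw [← Real.exp_add, add_comm]
    have hSn : ((ball D).card : ℝ) ^ (2 * n) = Real.exp (2 * n * Real.log S) := by
      rw [← hS]
      have h4 : (S:ℝ) = Real.exp (Real.log S) := (Real.exp_log (by linarith)).symm
      conv_lhs => rw [h4]
      rw [← Real.exp_nat_mul]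
      push_cast
      ring_nf
    push_cast at hprod ⊢
    rw [hSn]
    have hP0 : (0:ℝ) ≤ ∏ p ∈ Q, (p:ℝ) := Finset.prod_nonneg fun p _ => Nat.cast_nonneg p
    calc ((ball (Real.exp (A * n))).card : ℝ) * Real.exp (2 * n * Real.log S) *
          ∏ p ∈ Q, ((p - n : ℕ) : ℝ)
        ≤ Real.exp (2 * A * n + 3 * n) * Real.exp (2 * n * Real.log S) *
          (Real.exp (-(n * K)) * ∏ p ∈ Q, (p:ℝ)) := by
          refine mul_le_mul (mul_le_mul_of_nonneg_right hball (Real.exp_pos _).le) hprod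
            (Finset.prod_nonneg fun p _ => Nat.cast_nonneg _) (by positivity)
      _ = Real.exp (2 * A * n + 3 * n + 2 * n * Real.log S + -(n * K)) * ∏ p ∈ Q, (p:ℝ) := by
          rw [Real.exp_add _ (-(n * K)), Real.exp_add _ (2 * n * Real.log S)]; ring
      _ = Real.exp (-((A + 1) * n)) * ∏ p ∈ Q, (p:ℝ) := by
          congr 2
          rw [hK]; ring


/-- `m` consecutive blocks -/
lemma block_count (P : ℕ) (R : ℤ → Prop) [DecidablePred R] (M : ℝ)
    (h : ∀ K₀ : ℤ, (((Finset.Ico K₀ (K₀ + (P:ℤ))).filter R).card : ℝ) ≤ M) (m : ℕ) (K₀ : ℤ) :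
    (((Finset.Ico K₀ (K₀ + ((m * P : ℕ) : ℤ))).filter R).card : ℝ) ≤ m * M := by
  induction m with
  | zero => simp
  | succ m ih =>
    have h1 : Finset.Ico K₀ (K₀ + (((m + 1) * P : ℕ) : ℤ)) ⊆ Finset.Ico K₀ (K₀ + ((m * P : ℕ) : ℤ)) ∪
        Finset.Ico (K₀ + ((m * P : ℕ) : ℤ)) (K₀ + ((m * P : ℕ) : ℤ) + (P:ℤ)) := by
      intro k hk
      rw [Finset.mem_union, Finset.mem_Ico, Finset.mem_Ico]
      rw [Finset.mem_Ico] at hk
      have : (((m + 1) * P : ℕ) : ℤ) = ((m * P : ℕ) : ℤ) + P := by push_cast; ring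
      omega
    have h2 := Finset.card_le_card (Finset.filter_subset_filter R h1)
    rw [Finset.filter_union] at h2
    have h3 := h2.trans (Finset.card_union_le _ _)
    have h4 : (((Finset.Ico K₀ (K₀ + (((m + 1) * P : ℕ) : ℤ))).filter R).card : ℝ) ≤
        (((Finset.Ico K₀ (K₀ + ((m * P : ℕ) : ℤ))).filter R).card : ℝ) +
        (((Finset.Ico (K₀ + ((m * P : ℕ) : ℤ)) (K₀ + ((m * P : ℕ) : ℤ) + (P:ℤ))).filter R).card : ℝ) := by
      exact_mod_cast h3
    have h5 := h (K₀ + ((m * P : ℕ) : ℤ))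
    push_cast at h4 h5 ih ⊢
    linarith

/-- the point `c` is within `H` of a component with at least `n` vertices -/
def Near (D H : ℝ) (n : ℕ) (c : GaussianInt) : Prop :=
  ∃ z : GP, edist z.1 c ≤ H ∧ ∃ T : Finset GP, n ≤ T.card ∧ ∀ v ∈ T, (GD D).Reachable z v

lemma edist_eq (z w : GaussianInt) : edist z w = ‖GaussianInt.toComplex (z - w)‖ := by
  unfold edist; rw [map_sub]

lemma near_bad {D H : ℝ} (hD : 0 ≤ D) {n : ℕ} (hn : 1 ≤ n) {Q : Finset ℕ} {Y : ℝ}
    (hQ : ∀ p ∈ Q, p.Prime ∧ (p:ℝ) ≤ Y) {c : GaussianInt}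
    (hc : Y + (2 * n) * D + H < ‖GaussianInt.toComplex c‖) (h : Near D H n c) :
    BadAt Q D H n c := by
  classical
  obtain ⟨z, hz, T, hT, hTr⟩ := h
  obtain ⟨g, hg0, hg1, A, hA, hAg⟩ := exists_seq (GD D) z n T hTr hT hn
  have hstep : ∀ i, ‖GaussianInt.toComplex ((g (i + 1)).1 - (g i).1)‖ ≤ D := by
    intro i
    rcases hg1 i with h | h
    · rw [← h, sub_self, map_zero, norm_zero]; exact hD
    · have := h.2
      rw [edist_eq] at this
      rwa [← neg_sub, map_neg, norm_neg]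
  have hdist : ∀ i : ℕ, ‖GaussianInt.toComplex ((g i).1 - (g 0).1)‖ ≤ i * D := by
    intro i
    induction i with
    | zero => simp
    | succ i ih =>
      have h1 : (g (i + 1)).1 - (g 0).1 = ((g (i + 1)).1 - (g i).1) + ((g i).1 - (g 0).1) := by ring
      rw [h1, map_add]
      refine (norm_add_le _ _).trans ?_
      push_cast
      have := hstep i
      linarith
  refine ⟨fun i => (g i).1, ?_, hstep, ⟨A.image Subtype.val, ?_, ?_⟩, ?_⟩
  · simp only
    rw [hg0, ← edist_eq]; exact hz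
  · rw [Finset.card_image_of_injective _ Subtype.val_injective]; exact hA
  · intro a ha
    rw [Finset.mem_image] at ha
    obtain ⟨v, hv, rfl⟩ := ha
    obtain ⟨i, hi, hiv⟩ := hAg v hv
    exact ⟨i, hi, by simp only; rw [hiv]⟩
  · intro i hi p hp hd
    have h1 := norm_le_sq_of_prime (g i).2 (hQ p hp).1 hd
    have h2 : ‖GaussianInt.toComplex (g i).1‖ ^ 2 ≤ (p:ℝ) ^ 2 := by
      rw [← norm_real]; exact_mod_cast h1
    have h3 : ‖GaussianInt.toComplex (g i).1‖ ≤ p :=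
      (abs_le_of_sq_le_sq' h2 (Nat.cast_nonneg p)).2
    have h4 := (hQ p hp).2
    have h5 : GaussianInt.toComplex c = GaussianInt.toComplex (g i).1 -
        GaussianInt.toComplex ((g i).1 - (g 0).1) - GaussianInt.toComplex ((g 0).1 - c) := by
      rw [← map_sub, ← map_sub]; congr 1; ring
    have h6 : ‖GaussianInt.toComplex c‖ ≤ ‖GaussianInt.toComplex (g i).1‖ +
        ‖GaussianInt.toComplex ((g i).1 - (g 0).1)‖ + ‖GaussianInt.toComplex ((g 0).1 - c)‖ := by
      rw [h5]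
      exact (norm_sub_le _ _).trans (add_le_add_left (norm_sub_le _ _) _)
    have h7 := hdist i
    have h8 : ‖GaussianInt.toComplex ((g 0).1 - c)‖ ≤ H := by
      rw [hg0, ← edist_eq]; exact hz
    have h9 : (i:ℝ) * D ≤ (2 * n) * D :=
      mul_le_mul_of_nonneg_right (by exact_mod_cast hi.le) hD
    linarith

/-- few points of a line are close to the origin -/
lemma small_count {w z₀ : GaussianInt} (hw : w ≠ 0) {Y : ℝ} (hY : 0 ≤ Y) (I : Finset ℤ)
    (hI : ∀ k ∈ I, ‖GaussianInt.toComplex (z₀ + (k : GaussianInt) * w)‖ ≤ Y) :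
    (I.card : ℝ) ≤ 2 * Y + 1 := by
  rcases I.eq_empty_or_nonempty with rfl | hne
  · simp; positivity
  have hw1 : 1 ≤ ‖GaussianInt.toComplex w‖ := by
    have h1 : (1:ℝ) ≤ ‖GaussianInt.toComplex w‖ ^ 2 := by
      rw [← norm_real]
      exact_mod_cast (GaussianInt.norm_pos.2 hw)
    by_contra hcon
    push Not at hcon
    have := pow_lt_one₀ (norm_nonneg (GaussianInt.toComplex w)) hcon (two_ne_zero)
    linarith
  have hsub : I ⊆ Finset.Icc (I.min' hne) (I.min' hne + ⌊2 * Y⌋) := by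
    intro k hk
    rw [Finset.mem_Icc]
    refine ⟨I.min'_le k hk, ?_⟩
    have hm := hI _ (I.min'_mem hne)
    have hk' := hI k hk
    have h1 : ((k - I.min' hne : ℤ) : ℝ) ≤ 2 * Y := by
      have h2 : GaussianInt.toComplex (z₀ + (k : GaussianInt) * w) -
          GaussianInt.toComplex (z₀ + ((I.min' hne : ℤ) : GaussianInt) * w) =
          ((k - I.min' hne : ℤ) : ℂ) * GaussianInt.toComplex w := by
        simp only [map_add, map_mul, map_intCast]
        push_cast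
        ring
      have h3 : ‖((k - I.min' hne : ℤ) : ℂ) * GaussianInt.toComplex w‖ ≤ 2 * Y := by
        rw [← h2]
        refine (norm_sub_le _ _).trans ?_
        linarith
      rw [norm_mul] at h3
      have h4 : ‖((k - I.min' hne : ℤ) : ℂ)‖ = |((k - I.min' hne : ℤ) : ℝ)| := by
        rw [← Complex.ofReal_intCast, Complex.norm_real, Real.norm_eq_abs]
      rw [h4] at h3
      have h5 := le_abs_self ((k - I.min' hne : ℤ) : ℝ)
      have h6 : |((k - I.min' hne : ℤ) : ℝ)| * 1 ≤ |((k - I.min' hne : ℤ) : ℝ)| *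
        ‖GaussianInt.toComplex w‖ := mul_le_mul_of_nonneg_left hw1 (abs_nonneg _)
      linarith
    have := Int.le_floor.2 h1
    omega
  have hf0 : 0 ≤ ⌊2 * Y⌋ := Int.floor_nonneg.2 (by linarith)
  have h1 := Finset.card_le_card hsub
  rw [Int.card_Icc] at h1
  have h2 : ((I.card : ℕ) : ℤ) ≤ ⌊2 * Y⌋ + 1 := by omega
  have h3 : (I.card : ℝ) ≤ (⌊2 * Y⌋ : ℝ) + 1 := by exact_mod_cast h2
  have := Int.floor_le (2 * Y)
  linarith


lemma small_err {D A n m L : ℝ} (hD : 0 ≤ D) (hA : 0 ≤ A) (hn : 2 * A + 2 + (5 + 4 * D) ≤ n)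
    (hnm : n ≤ m) (hL : Real.exp (n * m ^ 2) ≤ L) :
    2 * (m + (2 * n) * D + Real.exp (A * n)) + 1 ≤ L * Real.exp (-((A + 1) * n)) := by
  have hn0 : 0 ≤ n := by linarith
  have hm1 : 1 ≤ m := by linarith
  have e0 : (1:ℝ) ≤ Real.exp (m + A * n) := Real.one_le_exp (by positivity)
  have e1 : m ≤ Real.exp (m + A * n) := by
    have h1 := Real.add_one_le_exp (m + A * n)
    have h2 : 0 ≤ A * n := by positivity
    linarith
  have e2 : (n:ℝ) ≤ Real.exp (m + A * n) := hnm.trans e1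
  have e3 : Real.exp (A * n) ≤ Real.exp (m + A * n) := Real.exp_le_exp.2 (by linarith)
  have e4 : 2 * (m + (2 * n) * D + Real.exp (A * n)) + 1 ≤ (5 + 4 * D) * Real.exp (m + A * n) := by
    have h1 := mul_le_mul_of_nonneg_right e2 hD
    linarith
  have e5 : (5 + 4 * D) ≤ Real.exp (5 + 4 * D) := by
    have := Real.add_one_le_exp (5 + 4 * D)
    linarith
  have e6 : 5 + 4 * D + (m + A * n) + (A + 1) * n ≤ n * m ^ 2 := by
    have h1 : (5 + 4 * D) * 1 ≤ (5 + 4 * D) * m := mul_le_mul_of_nonneg_left hm1 (by linarith)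
    have h2 : (2 * A + 1) * n ≤ (2 * A + 1) * m := mul_le_mul_of_nonneg_left hnm (by linarith)
    have h3 : (2 * A + 2 + (5 + 4 * D)) * m ≤ n * m :=
      mul_le_mul_of_nonneg_right hn (by linarith)
    have h4 : n * (m * 1) ≤ n * (m * m) :=
      mul_le_mul_of_nonneg_left (mul_le_mul_of_nonneg_left hm1 (by linarith)) hn0
    linarith
  calc 2 * (m + (2 * n) * D + Real.exp (A * n)) + 1 ≤ (5 + 4 * D) * Real.exp (m + A * n) := e4
    _ ≤ Real.exp (5 + 4 * D) * Real.exp (m + A * n) :=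
        mul_le_mul_of_nonneg_right e5 (Real.exp_pos _).le
    _ = Real.exp (5 + 4 * D + (m + A * n) + (A + 1) * n) * Real.exp (-((A + 1) * n)) := by
        rw [← Real.exp_add, ← Real.exp_add]; congr 1; ring
    _ ≤ L * Real.exp (-((A + 1) * n)) :=
        mul_le_mul_of_nonneg_right ((Real.exp_le_exp.2 e6).trans hL) (Real.exp_pos _).le

lemma three_exp {A n : ℝ} (hn : 2 ≤ n) :
    Real.exp (-((A + 1) * n)) * 3 ≤ Real.exp (-(A * n)) := by
  have h1 : -((A + 1) * n) = -(A * n) + -n := by ring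
  rw [h1, Real.exp_add, mul_assoc]
  refine mul_le_of_le_one_right (Real.exp_pos _).le ?_
  have h2 : Real.exp (-n) ≤ Real.exp (-2) := Real.exp_le_exp.2 (by linarith)
  have h3 : Real.exp (-2) ≤ 1 / 3 := by
    have h9 := Real.exp_one_gt_d9
    have h10 : Real.exp (-2) = (Real.exp 1 * Real.exp 1)⁻¹ := by
      rw [← Real.exp_add, ← Real.exp_neg]; norm_num
    rw [h10, inv_le_comm₀ (by positivity) (by norm_num)]
    nlinarith
  linarith

lemma four_pow_le (n B : ℕ) : (4:ℝ) ^ (n ^ B) ≤ Real.exp (2 * (n:ℝ) ^ B) := by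
  have h3 : (4:ℝ) ≤ Real.exp 2 := by
    have h9 := Real.exp_one_gt_d9
    have h10 : Real.exp 2 = Real.exp 1 ^ 2 := by rw [← Real.exp_nat_mul]; norm_num
    rw [h10]
    nlinarith
  calc (4:ℝ) ^ (n ^ B) ≤ (Real.exp 2) ^ (n ^ B) := pow_le_pow_left₀ (by norm_num) h3 _
    _ = Real.exp (2 * (n:ℝ) ^ B) := by
        rw [← Real.exp_nat_mul]; push_cast; ring_nf

open Classical in
/-- **Main estimate along a line.**  For every rate `A` there are `B, n₀` such that for `n ≥ n₀`,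
among any `L ≥ exp (n ^ B)` consecutive points of a lattice line, at most `exp (-A n) L` are within
`exp (A n)` of a component with at least `n` vertices. -/
theorem line_count {D A : ℝ} (hD : 0 ≤ D) (hA : 0 ≤ A) :
    ∃ B n₀ : ℕ, 1 ≤ B ∧ 1 ≤ n₀ ∧ ∀ n : ℕ, n₀ ≤ n →
    ∀ w : GaussianInt, w ≠ 0 → w.norm ≤ (n : ℤ) ^ 3 → ∀ (z₀ : GaussianInt) (L : ℕ),
      Real.exp ((n : ℝ) ^ B) ≤ L → ∀ K₀ : ℤ,
        (((Finset.Ico K₀ (K₀ + (L:ℤ))).filter
          (fun k : ℤ => Near D (Real.exp (A * n)) n (z₀ + (k : GaussianInt) * w))).card : ℝ) ≤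
        Real.exp (-(A * n)) * L := by
  obtain ⟨B, n₁, hB, hn₁, hgs⟩ := good_sift hD hA
  obtain ⟨n₂, hn₂⟩ := exists_nat_ge (2 * A + 2 + (5 + 4 * D))
  refine ⟨2 * B + 1, max n₁ n₂, by omega, by omega, fun n hn w hw hwn z₀ L hL K₀ => ?_⟩
  have hn1 : n₁ ≤ n := (le_max_left _ _).trans hn
  have hn2 : n₂ ≤ n := (le_max_right _ _).trans hn
  have hn2' : 2 * A + 2 + (5 + 4 * D) ≤ n := hn₂.trans (by exact_mod_cast hn2)
  have hnR : (2:ℝ) ≤ n := by exact_mod_cast (by omega : 2 ≤ n)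
  obtain ⟨Q, hQ1, hQ2, hQ3, hQ4, hQ5⟩ := hgs n hn1
  obtain ⟨P, hP⟩ : ∃ P : ℕ, P = ∏ p ∈ Q, p := ⟨_, rfl⟩
  obtain ⟨m, hm⟩ : ∃ m : ℝ, m = (n:ℝ) ^ B := ⟨_, rfl⟩
  have hnm : (n:ℝ) ≤ m := by
    rw [hm]; exact le_self_pow₀ (by linarith) (by omega)
  have hexp : (n:ℝ) ^ (2 * B + 1) = n * m ^ 2 := by
    rw [hm, ← pow_mul, pow_succ]; ring_nf
  rw [hexp] at hL
  rw [← hP] at hQ3 hQ4 hQ5
  have hP0 : (0:ℝ) < P := by exact_mod_cast hQ4
  have hm2 : 2 ≤ m := hnR.trans hnm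
  -- `P ≤ L`
  have hPL : (P:ℝ) ≤ L := by
    have h1 : (P:ℝ) ≤ 4 ^ (n ^ B) := by exact_mod_cast hQ3
    have h2 := four_pow_le n B
    rw [← hm] at h2
    refine h1.trans (h2.trans (le_trans ?_ hL))
    rw [Real.exp_le_exp]
    have h3 : 2 * m ≤ n * m := mul_le_mul_of_nonneg_right hnR (by linarith)
    have h4 : (n:ℝ) * (m * 1) ≤ n * (m * m) :=
      mul_le_mul_of_nonneg_left (mul_le_mul_of_nonneg_left (by linarith) (by linarith))
        (by linarith)
    linarith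
  have hPL' : P ≤ L := by exact_mod_cast hPL
  -- counting `BadAt`
  have hbad : ∀ K : ℤ, (((Finset.Ico K (K + (P:ℤ))).filter
      (fun k : ℤ => BadAt Q D (Real.exp (A * n)) n (z₀ + (k : GaussianInt) * w))).card : ℝ) ≤
      Real.exp (-((A + 1) * n)) * P := by
    intro K
    have h1 := bad_count (H := Real.exp (A * n)) hD (hQ1 w hw hwn) z₀ K
    rw [← hP] at h1
    refine le_trans ?_ hQ5
    exact_mod_cast h1
  have hblocks := block_count P _ _ hbad (L / P + 1) K₀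
  have hLm : L ≤ (L / P + 1) * P := by
    have h1 := Nat.div_add_mod L P
    have h2 := Nat.mod_lt L hQ4
    nlinarith
  have hmL : (((L / P + 1 : ℕ) : ℝ)) * P ≤ 2 * L := by
    have h1 : (L / P) * P ≤ L := Nat.div_mul_le_self L P
    have h2 : (((L / P) * P : ℕ) : ℝ) ≤ L := by exact_mod_cast h1
    push_cast at h2 ⊢
    linarith
  have hcount1 : (((Finset.Ico K₀ (K₀ + (L:ℤ))).filter
      (fun k : ℤ => BadAt Q D (Real.exp (A * n)) n (z₀ + (k : GaussianInt) * w))).card : ℝ) ≤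
      2 * L * Real.exp (-((A + 1) * n)) := by
    have h1 : Finset.Ico K₀ (K₀ + (L:ℤ)) ⊆
        Finset.Ico K₀ (K₀ + (((L / P + 1) * P : ℕ) : ℤ)) := by
      apply Finset.Ico_subset_Ico_right
      have : (L:ℤ) ≤ (((L / P + 1) * P : ℕ) : ℤ) := by exact_mod_cast hLm
      omega
    have h2 : (((Finset.Ico K₀ (K₀ + (L:ℤ))).filter
      (fun k : ℤ => BadAt Q D (Real.exp (A * n)) n (z₀ + (k : GaussianInt) * w))).card : ℝ) ≤
      (((Finset.Ico K₀ (K₀ + (((L / P + 1) * P : ℕ) : ℤ))).filter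
      (fun k : ℤ => BadAt Q D (Real.exp (A * n)) n (z₀ + (k : GaussianInt) * w))).card : ℝ) := by
      exact_mod_cast Finset.card_le_card (Finset.filter_subset_filter _ h1)
    refine h2.trans (hblocks.trans ?_)
    have h3 := mul_le_mul_of_nonneg_right hmL (Real.exp_pos (-((A + 1) * n))).le
    linarith
  -- points close to the origin
  obtain ⟨Y, hY⟩ : ∃ Y : ℝ, Y = m + (2 * n) * D + Real.exp (A * n) := ⟨_, rfl⟩
  have hY0 : 0 ≤ Y := by rw [hY]; positivity
  have hcount2 := small_count (z₀ := z₀) hw hY0 ((Finset.Ico K₀ (K₀ + (L:ℤ))).filter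
      (fun k : ℤ => ‖GaussianInt.toComplex (z₀ + (k : GaussianInt) * w)‖ ≤ Y))
      (fun k hk => (Finset.mem_filter.1 hk).2)
  have hsub : (Finset.Ico K₀ (K₀ + (L:ℤ))).filter
      (fun k : ℤ => Near D (Real.exp (A * n)) n (z₀ + (k : GaussianInt) * w)) ⊆
      (Finset.Ico K₀ (K₀ + (L:ℤ))).filter
      (fun k : ℤ => BadAt Q D (Real.exp (A * n)) n (z₀ + (k : GaussianInt) * w)) ∪
      (Finset.Ico K₀ (K₀ + (L:ℤ))).filter
      (fun k : ℤ => ‖GaussianInt.toComplex (z₀ + (k : GaussianInt) * w)‖ ≤ Y) := by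
    intro k hk
    rw [Finset.mem_filter] at hk
    rw [Finset.mem_union, Finset.mem_filter, Finset.mem_filter]
    by_cases hc : ‖GaussianInt.toComplex (z₀ + (k : GaussianInt) * w)‖ ≤ Y
    · exact Or.inr ⟨hk.1, hc⟩
    · left
      refine ⟨hk.1, near_bad hD (by omega) (Q := Q) (Y := m) (fun p hp => ?_) ?_ hk.2⟩
      · refine ⟨(hQ1 w hw hwn).prime p hp, ?_⟩
        rw [hm]
        exact_mod_cast hQ2 p hp
      · rw [hY] at hc
        exact not_le.1 hc
  have htotal : (((Finset.Ico K₀ (K₀ + (L:ℤ))).filter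
          (fun k : ℤ => Near D (Real.exp (A * n)) n (z₀ + (k : GaussianInt) * w))).card : ℝ) ≤
      2 * L * Real.exp (-((A + 1) * n)) + (2 * Y + 1) := by
    have h1 := (Finset.card_le_card hsub).trans (Finset.card_union_le _ _)
    have h2 : (((Finset.Ico K₀ (K₀ + (L:ℤ))).filter
          (fun k : ℤ => Near D (Real.exp (A * n)) n (z₀ + (k : GaussianInt) * w))).card : ℝ) ≤
          (((Finset.Ico K₀ (K₀ + (L:ℤ))).filter (fun k : ℤ => BadAt Q D (Real.exp (A * n)) n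
            (z₀ + (k : GaussianInt) * w))).card : ℝ) +
          (((Finset.Ico K₀ (K₀ + (L:ℤ))).filter (fun k : ℤ =>
            ‖GaussianInt.toComplex (z₀ + (k : GaussianInt) * w)‖ ≤ Y)).card : ℝ) := by
      exact_mod_cast h1
    linarith
  -- the error is small
  have hsmall := small_err hD hA hn2' hnm hL
  rw [← hY] at hsmall
  refine htotal.trans ?_
  have h7 := mul_le_mul_of_nonneg_right (three_exp (A := A) hnR) (Nat.cast_nonneg (α := ℝ) L)
  linarith

end Vale.Agent.P015
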