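import Vale.Agent.P015.Asym

/-!
# P015: boxes, thin neighbourhoods of lines, infinite components
-/

namespace Vale.Agent.P015

open Finset

lemma near_of_encard {D H : ℝ} {n : ℕ} {c : GaussianInt} {z : GP} (hz : edist z.1 c ≤ H)
    (h : (n : ℕ∞) ≤ (comp D z).encard) : Near D H n c := by
  obtain ⟨t, ht, hc⟩ := Set.exists_subset_encard_eq h
  have hfin : t.Finite := Set.finite_of_encard_eq_coe hc
  refine ⟨z, hz, hfin.toFinset, ?_, fun v hv => ht ((Set.Finite.mem_toFinset hfin).1 hv)⟩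
  rw [hfin.encard_eq_coe_toFinset_card] at hc
  exact_mod_cast hc.ge

/-- **Boxes.** -/
theorem box_count {D A : ℝ} (hD : 0 ≤ D) (hA : 0 ≤ A) :
    ∃ B n₀ : ℕ, 1 ≤ B ∧ ∀ n : ℕ, n₀ ≤ n → ∀ L : ℕ, Real.exp ((n : ℝ) ^ B) ≤ L → ∀ a b : ℤ,
      (({c : GaussianInt | (a ≤ c.re ∧ c.re < a + L) ∧ (b ≤ c.im ∧ c.im < b + L) ∧
        ∃ z : GP, edist z.1 c ≤ Real.exp (A * n) ∧ (n : ℕ∞) ≤ (comp D z).encard}).ncard : ℝ) ≤
        Real.exp (-(A * n)) * (L : ℝ) ^ 2 := by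
  classical
  obtain ⟨B, n₀, hB, hn₀, hline⟩ := line_count hD hA
  refine ⟨B, n₀, hB, fun n hn L hL a b => ?_⟩
  have hrow := fun y : ℤ => hline n hn 1 one_ne_zero (by
    rw [Zsqrtd.norm_one]
    have : 1 ≤ n := by omega
    exact_mod_cast Nat.one_le_pow 3 n this) (⟨0, y⟩ : GaussianInt) L hL a
  obtain ⟨F, hF⟩ : ∃ F : Finset (ℤ × ℤ), F = (Finset.Ico a (a + (L:ℤ)) ×ˢ
    Finset.Ico b (b + (L:ℤ))).filter (fun q => Near D (Real.exp (A * n)) n
      ((⟨0, q.2⟩ : GaussianInt) + (q.1 : GaussianInt) * 1)) := ⟨_, rfl⟩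
  have hsub : {c : GaussianInt | (a ≤ c.re ∧ c.re < a + L) ∧ (b ≤ c.im ∧ c.im < b + L) ∧
        ∃ z : GP, edist z.1 c ≤ Real.exp (A * n) ∧ (n : ℕ∞) ≤ (comp D z).encard} ⊆
      ((F.image (fun q : ℤ × ℤ => (⟨q.1, q.2⟩ : GaussianInt)) : Finset GaussianInt) :
        Set GaussianInt) := by
    rintro c ⟨h1, h2, z, hz, hzn⟩
    rw [Finset.mem_coe, Finset.mem_image]
    refine ⟨(c.re, c.im), ?_, rfl⟩
    rw [hF, Finset.mem_filter, Finset.mem_product, Finset.mem_Ico, Finset.mem_Ico]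
    refine ⟨⟨h1, h2⟩, ?_⟩
    have h3 : ((⟨0, c.im⟩ : GaussianInt) + (c.re : GaussianInt) * 1) = c := by
      rw [mul_one]
      ext <;> simp
    simp only
    rw [h3]
    exact near_of_encard hz hzn
  have h1 := Set.ncard_le_ncard hsub (Finset.finite_toSet _)
  rw [Set.ncard_coe_finset] at h1
  have h2 := h1.trans Finset.card_image_le
  have h3 : F.card = ∑ y ∈ Finset.Ico b (b + (L:ℤ)), (F.filter (fun q => q.2 = y)).card := by
    refine Finset.card_eq_sum_card_fiberwise fun q hq => ?_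
    rw [Finset.mem_coe, hF, Finset.mem_filter, Finset.mem_product] at hq
    exact hq.1.2
  have h4 : ∀ y ∈ Finset.Ico b (b + (L:ℤ)), ((F.filter (fun q => q.2 = y)).card : ℝ) ≤
      Real.exp (-(A * n)) * L := by
    intro y _
    refine le_trans ?_ (hrow y)
    have h5 : (F.filter (fun q => q.2 = y)).card ≤ ((Finset.Ico a (a + (L:ℤ))).filter
          (fun k : ℤ => Near D (Real.exp (A * n)) n
            ((⟨0, y⟩ : GaussianInt) + (k : GaussianInt) * 1))).card := by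
      refine Finset.card_le_card_of_injOn (fun q => q.1) ?_ ?_
      · intro q hq
        rw [Finset.mem_coe, Finset.mem_filter, hF, Finset.mem_filter, Finset.mem_product] at hq
        rw [Finset.mem_coe, Finset.mem_filter]
        refine ⟨hq.1.1.1, ?_⟩
        have := hq.1.2
        rw [hq.2] at this
        exact this
      · intro q hq r hr hqr
        rw [Finset.mem_coe, Finset.mem_filter] at hq hr
        exact Prod.ext hqr (hq.2.trans hr.2.symm)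
    exact_mod_cast h5
  have h6 : (F.card : ℝ) ≤ ∑ _y ∈ Finset.Ico b (b + (L:ℤ)), Real.exp (-(A * n)) * L := by
    rw [h3, Nat.cast_sum]
    exact Finset.sum_le_sum h4
  rw [Finset.sum_const, Int.card_Ico, nsmul_eq_mul] at h6
  have h7 : ((b + (L:ℤ) - b).toNat : ℝ) = L := by
    have : (b + (L:ℤ) - b).toNat = L := by omega
    rw [this]
  rw [h7] at h6
  have h8 : (({c : GaussianInt | (a ≤ c.re ∧ c.re < a + L) ∧ (b ≤ c.im ∧ c.im < b + L) ∧
        ∃ z : GP, edist z.1 c ≤ Real.exp (A * n) ∧ (n : ℕ∞) ≤ (comp D z).encard}).ncard : ℝ) ≤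
      (F.card : ℝ) := by exact_mod_cast h2
  refine h8.trans (h6.trans (le_of_eq ?_))
  ring

/-- **Primes in infinite components.** -/
theorem infinite_count {D : ℝ} (hD : 0 ≤ D) : ∃ c : ℝ, 0 < c ∧ ∃ R₀ : ℝ, ∀ R : ℝ, R₀ ≤ R →
    (({z : GP | ‖GaussianInt.toComplex z.1‖ ≤ R ∧ (comp D z).Infinite}).ncard : ℝ) ≤
      R ^ 2 * Real.exp (-(Real.log R) ^ c) := by
  classical
  obtain ⟨B, n₀, hB, hbox⟩ := box_count hD (zero_le_one (α := ℝ))
  have hB0 : (0:ℝ) < (B:ℝ) + 1 := by positivity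
  refine ⟨1 / (2 * ((B:ℝ) + 1)), by positivity,
    Real.exp (((n₀:ℝ) + 16) ^ (B + 1)), fun R hR => ?_⟩
  have hR0 : 0 < R := (Real.exp_pos _).trans_le hR
  have hlog : ((n₀:ℝ) + 16) ^ (B + 1) ≤ Real.log R := (Real.le_log_iff_exp_le hR0).2 hR
  have hlog0 : 0 < Real.log R := lt_of_lt_of_le (by positivity) hlog
  obtain ⟨u, hu⟩ : ∃ u : ℝ, u = Real.log R ^ (1 / ((B:ℝ) + 1)) := ⟨_, rfl⟩
  have hu16 : (n₀:ℝ) + 16 ≤ u := by
    have h1 : ((n₀:ℝ) + 16) = ((((n₀:ℝ) + 16) ^ (B + 1))) ^ (1 / ((B:ℝ) + 1)) := by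
      rw [← Real.rpow_natCast, ← Real.rpow_mul (by positivity)]
      push_cast
      rw [mul_one_div_cancel hB0.ne', Real.rpow_one]
    rw [hu, h1]
    exact Real.rpow_le_rpow (by positivity) hlog (by positivity)
  have hu0 : 0 ≤ u := by linarith [Nat.cast_nonneg (α := ℝ) n₀]
  have huB : u ^ (B + 1) = Real.log R := by
    rw [hu, ← Real.rpow_natCast, ← Real.rpow_mul hlog0.le]
    push_cast
    rw [one_div_mul_cancel hB0.ne', Real.rpow_one]
  have hsq : Real.log R ^ (1 / (2 * ((B:ℝ) + 1))) = √u := by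
    rw [hu, Real.sqrt_eq_rpow, ← Real.rpow_mul hlog0.le]
    congr 1
    field_simp
  obtain ⟨n, hn⟩ : ∃ n : ℕ, n = ⌊u⌋₊ := ⟨_, rfl⟩
  have hnu : (n:ℝ) ≤ u := by rw [hn]; exact Nat.floor_le hu0
  have hun : u - 1 < n := by rw [hn]; exact Nat.sub_one_lt_floor u
  have hnn : n₀ ≤ n := by
    rw [hn]
    exact Nat.le_floor (by linarith)
  have hR1 : 1 ≤ R := by
    have : Real.exp 0 ≤ Real.exp (((n₀:ℝ) + 16) ^ (B + 1)) := Real.exp_le_exp.2 (by positivity)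
    rw [Real.exp_zero] at this
    linarith
  obtain ⟨r, hr⟩ : ∃ r : ℕ, r = ⌊R⌋₊ := ⟨_, rfl⟩
  have hrR : (r:ℝ) ≤ R := by rw [hr]; exact Nat.floor_le hR0.le
  have hRr : R < r + 1 := by rw [hr]; exact Nat.lt_floor_add_one R
  have hL : Real.exp ((n : ℝ) ^ B) ≤ ((2 * r + 1 : ℕ) : ℝ) := by
    have h1 : Real.exp ((n:ℝ) ^ B) ≤ R := by
      rw [← Real.le_log_iff_exp_le hR0, ← huB]
      calc (n:ℝ) ^ B ≤ u ^ B := pow_le_pow_left₀ (Nat.cast_nonneg n) hnu B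
        _ ≤ u ^ (B + 1) := pow_le_pow_right₀ (by linarith [Nat.cast_nonneg (α := ℝ) n₀]) (by omega)
    push_cast
    have : (0:ℝ) ≤ r := Nat.cast_nonneg r
    linarith
  have hb := hbox n hnn (2 * r + 1) hL (-(r:ℤ)) (-(r:ℤ))
  -- the inclusion
  have hinj : Set.InjOn (fun z : GP => z.1) {z : GP | ‖GaussianInt.toComplex z.1‖ ≤ R ∧
      (comp D z).Infinite} := Subtype.val_injective.injOn
  have hfin : ({c : GaussianInt | (-(r:ℤ) ≤ c.re ∧ c.re < -(r:ℤ) + ((2 * r + 1 : ℕ) : ℤ)) ∧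
      (-(r:ℤ) ≤ c.im ∧ c.im < -(r:ℤ) + ((2 * r + 1 : ℕ) : ℤ)) ∧
        ∃ z : GP, edist z.1 c ≤ Real.exp (1 * n) ∧ (n : ℕ∞) ≤ (comp D z).encard}).Finite := by
    refine Set.Finite.subset (s := (((Finset.Ico (-(r:ℤ)) (-(r:ℤ) + ((2 * r + 1 : ℕ) : ℤ)) ×ˢ
      Finset.Ico (-(r:ℤ)) (-(r:ℤ) + ((2 * r + 1 : ℕ) : ℤ))).image
        (fun q : ℤ × ℤ => (⟨q.1, q.2⟩ : GaussianInt)) : Finset GaussianInt) :
          Set GaussianInt)) (Finset.finite_toSet _) ?_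
    rintro c ⟨h1, h2, _⟩
    rw [Finset.mem_coe, Finset.mem_image]
    refine ⟨(c.re, c.im), ?_, rfl⟩
    rw [Finset.mem_product, Finset.mem_Ico, Finset.mem_Ico]
    exact ⟨h1, h2⟩
  have hsub : (fun z : GP => z.1) '' {z : GP | ‖GaussianInt.toComplex z.1‖ ≤ R ∧
      (comp D z).Infinite} ⊆ {c : GaussianInt | (-(r:ℤ) ≤ c.re ∧
      c.re < -(r:ℤ) + ((2 * r + 1 : ℕ) : ℤ)) ∧
      (-(r:ℤ) ≤ c.im ∧ c.im < -(r:ℤ) + ((2 * r + 1 : ℕ) : ℤ)) ∧
        ∃ z : GP, edist z.1 c ≤ Real.exp (1 * n) ∧ (n : ℕ∞) ≤ (comp D z).encard} := by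
    rintro c ⟨z, ⟨hz1, hz2⟩, rfl⟩
    have h1 : |(z.1.re : ℝ)| ≤ R := by
      rw [GaussianInt.intCast_re]
      exact (Complex.abs_re_le_norm _).trans hz1
    have h2 : |(z.1.im : ℝ)| ≤ R := by
      rw [GaussianInt.intCast_im]
      exact (Complex.abs_im_le_norm _).trans hz1
    rw [abs_le] at h1 h2
    have a1 : z.1.re < (r:ℤ) + 1 := by
      have : ((z.1.re : ℤ) : ℝ) < ((r:ℤ) + 1 : ℤ) := by push_cast; linarith
      exact_mod_cast this
    have a2 : -(r:ℤ) - 1 < z.1.re := by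
      have : ((-(r:ℤ) - 1 : ℤ) : ℝ) < ((z.1.re : ℤ) : ℝ) := by push_cast; linarith
      exact_mod_cast this
    have a3 : z.1.im < (r:ℤ) + 1 := by
      have : ((z.1.im : ℤ) : ℝ) < ((r:ℤ) + 1 : ℤ) := by push_cast; linarith
      exact_mod_cast this
    have a4 : -(r:ℤ) - 1 < z.1.im := by
      have : ((-(r:ℤ) - 1 : ℤ) : ℝ) < ((z.1.im : ℤ) : ℝ) := by push_cast; linarith
      exact_mod_cast this
    refine ⟨⟨by simp only; omega, by simp only; push_cast; omega⟩,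
      ⟨by simp only; omega, by simp only; push_cast; omega⟩, z, ?_, ?_⟩
    · unfold edist
      simp only [sub_self, norm_zero]
      exact (Real.exp_pos _).le
    · rw [hz2.encard_eq]
      exact le_top
  have h1 : ({z : GP | ‖GaussianInt.toComplex z.1‖ ≤ R ∧ (comp D z).Infinite}).ncard ≤
      ({c : GaussianInt | (-(r:ℤ) ≤ c.re ∧ c.re < -(r:ℤ) + ((2 * r + 1 : ℕ) : ℤ)) ∧
      (-(r:ℤ) ≤ c.im ∧ c.im < -(r:ℤ) + ((2 * r + 1 : ℕ) : ℤ)) ∧
        ∃ z : GP, edist z.1 c ≤ Real.exp (1 * n) ∧ (n : ℕ∞) ≤ (comp D z).encard}).ncard := by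
    rw [← Set.ncard_image_of_injOn hinj]
    exact Set.ncard_le_ncard hsub hfin
  have h2 : (({z : GP | ‖GaussianInt.toComplex z.1‖ ≤ R ∧ (comp D z).Infinite}).ncard : ℝ) ≤
      Real.exp (-(1 * n)) * ((2 * r + 1 : ℕ) : ℝ) ^ 2 := le_trans (by exact_mod_cast h1) hb
  refine h2.trans ?_
  rw [hsq]
  have h3 : ((2 * r + 1 : ℕ) : ℝ) ≤ 3 * R := by push_cast; linarith
  have h4 : √u + 3 ≤ u - 1 := by
    have h5 : √u ≤ u / 4 := by
      rw [Real.sqrt_le_left (by linarith)]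
      nlinarith [Nat.cast_nonneg (α := ℝ) n₀]
    linarith [Nat.cast_nonneg (α := ℝ) n₀]
  have h6 : (9:ℝ) ≤ Real.exp 3 := by
    have h9 := Real.exp_one_gt_d9
    have h10 : Real.exp 3 = Real.exp 1 ^ 3 := by rw [← Real.exp_nat_mul]; norm_num
    have h11 : (2.5:ℝ) ^ 3 ≤ Real.exp 1 ^ 3 := pow_le_pow_left₀ (by norm_num) (by linarith) 3
    rw [h10]
    norm_num at h11 ⊢
    linarith
  calc Real.exp (-(1 * n)) * ((2 * r + 1 : ℕ) : ℝ) ^ 2
      ≤ Real.exp (-(1 * n)) * (3 * R) ^ 2 :=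
        mul_le_mul_of_nonneg_left (pow_le_pow_left₀ (Nat.cast_nonneg _) h3 2) (Real.exp_pos _).le
    _ = R ^ 2 * (9 * Real.exp (-(n:ℝ))) := by rw [one_mul]; ring
    _ ≤ R ^ 2 * (Real.exp 3 * Real.exp (-(n:ℝ))) :=
        mul_le_mul_of_nonneg_left (mul_le_mul_of_nonneg_right h6 (Real.exp_pos _).le)
          (by positivity)
    _ ≤ R ^ 2 * Real.exp (-√u) := by
        refine mul_le_mul_of_nonneg_left ?_ (by positivity)
        rw [← Real.exp_add, Real.exp_le_exp]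
        linarith

end Vale.Agent.P015
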