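import Mathlib

/-!
# P015: sums of `1/p` over primes `p = 1 mod 4` in long multiplicative windows

From the behaviour at `s = 1` of the L-series of the von Mangoldt function on a residue class.
-/

namespace Vale.Agent.P015

open Real Finset Filter Topology
open ArithmeticFunction ArithmeticFunction.vonMangoldt

/-- the von Mangoldt function on the residue class `1 mod 4` -/
noncomputable def fz (n : ℕ) : ℝ := residueClass (1 : ZMod 4) n

lemma fz_nonneg (n : ℕ) : 0 ≤ fz n := residueClass_nonneg _ n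

lemma fz_zero : fz 0 = 0 := residueClass_apply_zero _

lemma L_bounds : ∃ C : ℝ, 0 ≤ C ∧ ∀ x : ℝ, 1 < x → x ≤ 2 →
    (1 / 2) / (x - 1) - C ≤ ∑' n, fz n / (n : ℝ) ^ x ∧
      ∑' n, fz n / (n : ℝ) ^ x ≤ (1 / 2) / (x - 1) + C := by
  have ha : IsUnit (1 : ZMod 4) := isUnit_one
  have H {x : ℝ} (hx : 1 < x) :
      ∑' n, fz n / (n : ℝ) ^ x =
        (LFunctionResidueClassAux (1 : ZMod 4) x).re + ((4 : ℕ).totient : ℝ)⁻¹ / (x - 1) := by
    refine Complex.ofReal_injective ?_
    simp only [Complex.ofReal_tsum, Complex.ofReal_div, Complex.ofReal_cpow (Nat.cast_nonneg _),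
      Complex.ofReal_natCast, Complex.ofReal_add, Complex.ofReal_inv, Complex.ofReal_sub,
      Complex.ofReal_one]
    simp_rw [← LFunctionResidueClassAux_real ha hx,
      eqOn_LFunctionResidueClassAux ha <| Set.mem_ofPred.mpr (Complex.ofReal_re x ▸ hx),
      sub_add_cancel, LSeries, LSeries.term]
    refine tsum_congr fun n ↦ ?_
    split_ifs with hn
    · simp only [hn, fz_zero, Complex.ofReal_zero, zero_div]
    · rfl
  have hcont : ContinuousOn (fun x : ℝ ↦ (LFunctionResidueClassAux (1 : ZMod 4) x).re)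
      (Set.Icc 1 2) :=
    Complex.continuous_re.continuousOn.comp (t := Set.univ)
      (continuousOn_LFunctionResidueClassAux (1 : ZMod 4))
      (fun ⦃x⦄ a ↦ trivial) |>.comp Complex.continuous_ofReal.continuousOn fun x hx ↦ by
        simpa only [Set.mem_ofPred_eq, Complex.ofReal_re] using hx.1
  obtain ⟨C, hC⟩ := isCompact_Icc.exists_bound_of_continuousOn hcont
  have ht : ((4 : ℕ).totient : ℝ)⁻¹ = 1 / 2 := by
    have : (4 : ℕ).totient = 2 := by decide
    rw [this]; norm_num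
  refine ⟨max C 0, le_max_right _ _, fun x h1 h2 => ?_⟩
  rw [H h1, ht]
  have := hC x ⟨h1.le, h2⟩
  rw [Real.norm_eq_abs, abs_le] at this
  have h3 := le_max_left C 0
  constructor <;> linarith [this.1, this.2]

lemma summable_L {x : ℝ} (hx : 1 < x) : Summable (fun n : ℕ => fz n / (n : ℝ) ^ x) := by
  have h := LSeriesSummable_of_abscissaOfAbsConv_lt_re (s := (x : ℂ)) <|
      (abscissaOfAbsConv_residueClass_le_one (1 : ZMod 4)).trans_lt <| by
        rw [Complex.ofReal_re]; exact_mod_cast hx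
  have h2 := h.norm
  refine h2.congr fun n => ?_
  rw [LSeries.norm_term_eq]
  split_ifs with hn
  · rw [hn, fz_zero, zero_div]
  · rw [Complex.ofReal_re, Complex.norm_real, Real.norm_eq_abs, abs_of_nonneg (residueClass_nonneg _ n)]
    rfl


lemma rpow_facts {x : ℝ} (hx : 1 < x) (c : ℝ) : x ^ (c / Real.log x) = Real.exp c := by
  have h0 : 0 < x := by linarith
  have hl : Real.log x ≠ 0 := (Real.log_pos hx).ne'
  rw [Real.rpow_def_of_pos h0]
  congr 1
  field_simp

/-- the basic splitting -/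
lemma split_bound {z x : ℕ} (hz : 3 ≤ z) (hx : z ^ 4 ≤ x) {C : ℝ} (hC0 : 0 ≤ C)
    (hC : ∀ y : ℝ, 1 < y → y ≤ 2 →
    (1 / 2) / (y - 1) - C ≤ ∑' n, fz n / (n : ℝ) ^ y ∧
      ∑' n, fz n / (n : ℝ) ^ y ≤ (1 / 2) / (y - 1) + C) :
    Real.log x / 8 - C - Real.exp 1 * (Real.log z / 2 + C) -
      Real.exp (-2) * (Real.log x / 4 + C) ≤ ∑ n ∈ Finset.Ioc z x, fz n / n := by
  have hz1 : (1:ℝ) < z := by exact_mod_cast (by omega : 1 < z)
  have hlz : 1 ≤ Real.log z := by
    rw [Real.le_log_iff_exp_le (by linarith)]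
    have := Real.exp_one_lt_d9
    have h3 : (3:ℝ) ≤ z := by exact_mod_cast hz
    linarith
  have hx' : (z:ℝ) ^ 4 ≤ x := by exact_mod_cast hx
  have hx1 : (1:ℝ) < x := lt_of_lt_of_le (one_lt_pow₀ hz1 (by norm_num)) hx'
  have hlx : 4 * Real.log z ≤ Real.log x := by
    have h1 := Real.log_le_log (by positivity) hx'
    rw [Real.log_pow] at h1
    exact_mod_cast h1
  have hlx4 : 4 ≤ Real.log x := by linarith
  obtain ⟨d, hd⟩ : ∃ d, d = 4 / Real.log x := ⟨_, rfl⟩
  obtain ⟨e, he⟩ : ∃ e, e = 1 / Real.log z := ⟨_, rfl⟩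
  obtain ⟨f, hf⟩ : ∃ f, f = 2 / Real.log x := ⟨_, rfl⟩
  have hd0 : 0 < d := by rw [hd]; positivity
  have he0 : 0 < e := by rw [he]; positivity
  have hf0 : 0 < f := by rw [hf]; positivity
  have hd1 : d ≤ 1 := by rw [hd, div_le_one (by linarith)]; linarith
  have he1 : e ≤ 1 := by rw [he, div_le_one (by linarith)]; linarith
  have hf1 : f ≤ 1 := by rw [hf, div_le_one (by linarith)]; linarith
  have hdf : d = f + f := by rw [hd, hf]; ring
  have A1 := (hC (1 + d) (by linarith) (by linarith)).1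
  have A2 := (hC (1 + e) (by linarith) (by linarith)).2
  have A3 := (hC (1 + f) (by linarith) (by linarith)).2
  rw [add_sub_cancel_left] at A1 A2 A3
  have S1 := summable_L (x := 1 + d) (by linarith)
  have S2 := summable_L (x := 1 + e) (by linarith)
  have S3 := summable_L (x := 1 + f) (by linarith)
  have key : ∀ n : ℕ, fz n / (n:ℝ) ^ (1 + d) ≤ Real.exp 1 * (fz n / (n:ℝ) ^ (1 + e)) +
      (if n ∈ Finset.Ioc z x then fz n / n else 0) +
      Real.exp (-2) * (fz n / (n:ℝ) ^ (1 + f)) := by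
    intro n
    have h0 := fz_nonneg n
    rcases Nat.eq_zero_or_pos n with rfl | hn
    · rw [fz_zero]; simp
    have hn0 : (0:ℝ) < n := by exact_mod_cast hn
    have hn1 : (1:ℝ) ≤ n := by exact_mod_cast hn
    have t1 : 0 ≤ Real.exp 1 * (fz n / (n:ℝ) ^ (1 + e)) := by positivity
    have t2 : 0 ≤ (if n ∈ Finset.Ioc z x then fz n / n else 0) := by
      split_ifs
      · positivity
      · exact le_rfl
    have t3 : 0 ≤ Real.exp (-2) * (fz n / (n:ℝ) ^ (1 + f)) := by positivity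
    have hle : fz n / (n:ℝ) ^ (1 + d) ≤ fz n / n := by
      apply div_le_div_of_nonneg_left h0 hn0
      calc (n:ℝ) = (n:ℝ) ^ (1:ℝ) := (Real.rpow_one _).symm
        _ ≤ (n:ℝ) ^ (1 + d) := Real.rpow_le_rpow_of_exponent_le hn1 (by linarith)
    rcases le_or_gt n z with h1 | h1
    · have h2 : fz n / n ≤ Real.exp 1 * (fz n / (n:ℝ) ^ (1 + e)) := by
        rw [Real.rpow_add hn0, Real.rpow_one]
        have h3 : (n:ℝ) ^ e ≤ Real.exp 1 := by
          rw [he, ← rpow_facts hz1 1]
          exact Real.rpow_le_rpow hn0.le (by exact_mod_cast h1) (by positivity)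
        have h4 : 0 < (n:ℝ) ^ e := Real.rpow_pos_of_pos hn0 _
        rw [mul_div_assoc', div_le_div_iff₀ hn0 (by positivity)]
        nlinarith [mul_le_mul_of_nonneg_left h3 (mul_nonneg h0 hn0.le)]
      linarith
    · rcases le_or_gt n x with h2 | h2
      · rw [if_pos (Finset.mem_Ioc.2 ⟨h1, h2⟩)]
        linarith
      · have h3 : fz n / (n:ℝ) ^ (1 + d) ≤ Real.exp (-2) * (fz n / (n:ℝ) ^ (1 + f)) := by
          rw [hdf, ← add_assoc, Real.rpow_add hn0 (1 + f) f]
          have h4 : Real.exp 2 ≤ (n:ℝ) ^ f := by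
            rw [hf, ← rpow_facts hx1 2]
            exact Real.rpow_le_rpow (by linarith) (by exact_mod_cast h2.le) (by positivity)
          have h5 : 0 < (n:ℝ) ^ (1 + f) := Real.rpow_pos_of_pos hn0 _
          rw [Real.exp_neg, ← div_eq_inv_mul, div_div]
          apply div_le_div_of_nonneg_left h0 (by positivity)
          exact mul_le_mul_of_nonneg_left h4 h5.le
        linarith
  have hfin : Summable (fun n : ℕ => if n ∈ Finset.Ioc z x then fz n / n else 0) :=
    summable_of_ne_finset_zero (s := Finset.Ioc z x) fun n hn => if_neg hn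
  have hts : ∑' n : ℕ, (if n ∈ Finset.Ioc z x then fz n / n else 0) =
      ∑ n ∈ Finset.Ioc z x, fz n / n := by
    rw [tsum_eq_sum (s := Finset.Ioc z x) fun n hn => if_neg hn]
    exact Finset.sum_congr rfl fun n hn => if_pos hn
  have hsum := S1.tsum_le_tsum key (((S2.mul_left _).add hfin).add (S3.mul_left _))
  rw [((S2.mul_left _).add hfin).tsum_add (S3.mul_left _), (S2.mul_left _).tsum_add hfin,
    tsum_mul_left, tsum_mul_left, hts] at hsum
  have e1 : 1 / 2 / d = Real.log x / 8 := by rw [hd]; field_simp; norm_num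
  have e2 : 1 / 2 / e = Real.log z / 2 := by rw [he]; field_simp
  have e3 : 1 / 2 / f = Real.log x / 4 := by rw [hf]; field_simp; norm_num
  rw [e1] at A1
  rw [e2] at A2
  rw [e3] at A3
  have B2 := mul_le_mul_of_nonneg_left A2 (Real.exp_pos 1).le
  have B3 := mul_le_mul_of_nonneg_left A3 (Real.exp_pos (-2)).le
  linarith


/-- primes `1 mod 4` in `(z, x]` -/
def PP (z x : ℕ) : Finset ℕ := (Finset.Ioc z x).filter (fun p => p.Prime ∧ p % 4 = 1)

lemma mem_PP {z x p : ℕ} : p ∈ PP z x ↔ (z < p ∧ p ≤ x) ∧ p.Prime ∧ p % 4 = 1 := by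
  unfold PP
  rw [Finset.mem_filter, Finset.mem_Ioc]

lemma fz_prime {p : ℕ} (hp : p.Prime) : fz p = if p % 4 = 1 then Real.log p else 0 := by
  unfold fz residueClass
  have h : ((p : ZMod 4) = 1) ↔ p % 4 = 1 := by
    have := ZMod.natCast_eq_natCast_iff' p 1 4
    rw [Nat.cast_one] at this
    rw [this]
  by_cases h1 : p % 4 = 1
  · rw [if_pos h1, Set.indicator_of_mem (by exact h.2 h1)]
    exact vonMangoldt_apply_prime hp
  · rw [if_neg h1, Set.indicator_of_notMem (by exact fun h2 => h1 (h.1 h2))]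

/-- one block -/
lemma block : ∃ z₀ : ℕ, 3 ≤ z₀ ∧ ∀ z : ℕ, z₀ ≤ z →
    (1:ℝ) / 60 ≤ ∑ p ∈ PP z (z ^ 20), (1:ℝ) / p := by
  obtain ⟨C, hC0, hC⟩ := L_bounds
  have hsn := summable_residueClass_non_primes_div (1 : ZMod 4)
  obtain ⟨C', hC'⟩ : ∃ C', C' = ∑' n : ℕ, (if n.Prime then 0 else fz n) / (n:ℝ) := ⟨_, rfl⟩
  obtain ⟨z₀, hz₀⟩ := exists_nat_ge (Real.exp ((4 * C + C') / (6 / 100)))
  refine ⟨max z₀ 3, le_max_right _ _, fun z hz => ?_⟩
  have hz3 : 3 ≤ z := (le_max_right _ _).trans hz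
  have hzz : z₀ ≤ z := (le_max_left _ _).trans hz
  have hz1 : (1:ℝ) < z := by exact_mod_cast (by omega : 1 < z)
  have hz0 : (0:ℝ) < z := by linarith
  have hlz : 1 ≤ Real.log z := by
    rw [Real.le_log_iff_exp_le (by linarith)]
    have := Real.exp_one_lt_d9
    have h3 : (3:ℝ) ≤ z := by exact_mod_cast hz3
    linarith
  have hbig : 4 * C + C' ≤ 6 / 100 * Real.log z := by
    have h1 : Real.exp ((4 * C + C') / (6 / 100)) ≤ z := hz₀.trans (by exact_mod_cast hzz)
    have h2 := (Real.le_log_iff_exp_le hz0).2 h1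
    rw [div_le_iff₀ (by norm_num)] at h2
    linarith
  have hs := split_bound (x := z ^ 20) hz3 (Nat.pow_le_pow_right (by omega) (by norm_num)) hC0 hC
  have hlx : Real.log ((z ^ 20 : ℕ) : ℝ) = 20 * Real.log z := by
    rw [Nat.cast_pow, Real.log_pow]; norm_num
  rw [hlx] at hs
  have he1 := Real.exp_one_lt_d9
  have he1' := Real.exp_one_gt_d9
  have he2 : Real.exp (-2) ≤ 7 / 50 := by
    have : Real.exp (-2) = (Real.exp 1 * Real.exp 1)⁻¹ := by
      rw [← Real.exp_add, ← Real.exp_neg]; norm_num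
    rw [this, inv_le_comm₀ (by positivity) (by norm_num)]
    nlinarith
  have he2' := Real.exp_pos (-2)
  -- remove the prime powers
  have hsplit : ∑ n ∈ Finset.Ioc z (z ^ 20), fz n / n ≤
      C' + ∑ p ∈ PP z (z ^ 20), Real.log p / p := by
    have h1 : ∑ n ∈ Finset.Ioc z (z ^ 20), fz n / (n:ℝ) =
        ∑ n ∈ Finset.Ioc z (z ^ 20), (if n.Prime then 0 else fz n) / (n:ℝ) +
        ∑ n ∈ Finset.Ioc z (z ^ 20), (if n.Prime then fz n else 0) / (n:ℝ) := by
      rw [← Finset.sum_add_distrib]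
      refine Finset.sum_congr rfl fun n _ => ?_
      split_ifs <;> simp
    have h2 : ∑ n ∈ Finset.Ioc z (z ^ 20), (if n.Prime then 0 else fz n) / (n:ℝ) ≤ C' := by
      rw [hC']
      refine hsn.sum_le_tsum _ fun n _ => ?_
      split_ifs
      · simp
      · exact div_nonneg (fz_nonneg n) (Nat.cast_nonneg n)
    have h3 : ∑ n ∈ Finset.Ioc z (z ^ 20), (if n.Prime then fz n else 0) / (n:ℝ) =
        ∑ p ∈ PP z (z ^ 20), Real.log p / p := by
      unfold PP
      rw [Finset.sum_filter]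
      refine Finset.sum_congr rfl fun n _ => ?_
      by_cases hp : n.Prime
      · rw [if_pos hp, fz_prime hp]
        by_cases h4 : n % 4 = 1
        · rw [if_pos h4, if_pos ⟨hp, h4⟩]
        · rw [if_neg h4, if_neg (fun h => h4 h.2), zero_div]
      · rw [if_neg hp, if_neg (fun h => hp h.1), zero_div]
    rw [h1, h3]
    linarith
  have hupper : ∑ p ∈ PP z (z ^ 20), Real.log p / p ≤
      (20 * Real.log z) * ∑ p ∈ PP z (z ^ 20), (1:ℝ) / p := by
    rw [Finset.mul_sum]
    refine Finset.sum_le_sum fun p hp => ?_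
    rw [mem_PP] at hp
    have hp0 : (0:ℝ) < p := by exact_mod_cast (by omega : 0 < p)
    rw [div_eq_mul_one_div]
    refine mul_le_mul_of_nonneg_right ?_ (by positivity)
    rw [← hlx]
    exact Real.log_le_log hp0 (by exact_mod_cast hp.1.2)
  have e1 : Real.exp 1 * (Real.log z / 2 + C) ≤ 68 / 25 * (Real.log z / 2 + C) :=
    mul_le_mul_of_nonneg_right (by norm_num at he1 ⊢; linarith) (by linarith)
  have e2 : Real.exp (-2) * (20 * Real.log z / 4 + C) ≤ 7 / 50 * (20 * Real.log z / 4 + C) :=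
    mul_le_mul_of_nonneg_right he2 (by linarith)
  have hfin : 9 / 25 * Real.log z ≤ (20 * Real.log z) * ∑ p ∈ PP z (z ^ 20), (1:ℝ) / p := by
    linarith
  by_contra hcon
  push Not at hcon
  have h5 := mul_lt_mul_of_pos_left hcon (by linarith : (0:ℝ) < 20 * Real.log z)
  linarith

/-- **Mertens-type bound**: the sum of `1/p` over primes `p = 1 mod 4` in `(z, z^B]` exceeds any
given constant, if `B` is large. -/
theorem mertens_one_mod_four (K : ℝ) : ∃ (B : ℕ) (z₀ : ℕ), 1 ≤ B ∧ 2 ≤ z₀ ∧ ∀ z : ℕ, z₀ ≤ z →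
    K ≤ ∑ p ∈ PP z (z ^ B), (1:ℝ) / p := by
  obtain ⟨z₀, hz₀, hb⟩ := block
  obtain ⟨m, hm⟩ := exists_nat_ge (60 * K)
  refine ⟨20 ^ m, z₀, Nat.one_le_pow _ _ (by norm_num), by omega, fun z hz => ?_⟩
  have key : ∀ m : ℕ, (m:ℝ) / 60 ≤ ∑ p ∈ PP z (z ^ (20 ^ m)), (1:ℝ) / p := by
    intro m
    induction m with
    | zero =>
      rw [Nat.cast_zero, zero_div]
      exact Finset.sum_nonneg fun p _ => by positivity
    | succ m ih =>
      have hz1 : 1 ≤ z := by omega
      have h1 : z ≤ z ^ 20 ^ m := Nat.le_self_pow (by positivity) z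
      have h2 := hb (z ^ 20 ^ m) (hz.trans h1)
      have h3 : (z ^ 20 ^ m) ^ 20 = z ^ 20 ^ (m + 1) := by
        rw [← pow_mul, ← pow_succ]
      rw [h3] at h2
      have h4 : Disjoint (PP z (z ^ 20 ^ m)) (PP (z ^ 20 ^ m) (z ^ 20 ^ (m + 1))) := by
        rw [Finset.disjoint_left]
        intro p hp hq
        rw [mem_PP] at hp hq
        omega
      have h5 : PP z (z ^ 20 ^ m) ∪ PP (z ^ 20 ^ m) (z ^ 20 ^ (m + 1)) ⊆
          PP z (z ^ 20 ^ (m + 1)) := by
        intro p hp
        rw [Finset.mem_union] at hp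
        have h6 : z ^ 20 ^ m ≤ z ^ 20 ^ (m + 1) :=
          Nat.pow_le_pow_right hz1 (Nat.pow_le_pow_right (by norm_num) (by omega))
        rcases hp with hp | hp
        · rw [mem_PP] at hp ⊢
          exact ⟨⟨hp.1.1, hp.1.2.trans h6⟩, hp.2⟩
        · rw [mem_PP] at hp ⊢
          exact ⟨⟨lt_of_le_of_lt h1 hp.1.1, hp.1.2⟩, hp.2⟩
      have h7 := Finset.sum_le_sum_of_subset_of_nonneg (f := fun p : ℕ => (1:ℝ) / p) h5
        (fun p _ _ => by positivity)
      rw [Finset.sum_union h4] at h7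
      push_cast
      linarith
  refine le_trans ?_ (key m)
  rw [le_div_iff₀ (by norm_num)]
  linarith

end Vale.Agent.P015
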