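import Mathlib

/-!
# P015: the sieve along a line
-/

namespace Vale.Agent.P015

open Finset

/-- Chinese remainder count: integers in an interval of length `∏ p` avoiding, for every `p`, a set
of at least `n` residues. -/
theorem sieve_count (Q : Finset ℕ) (hQ : ∀ p ∈ Q, p.Prime) (n : ℕ) (B : ℕ → Finset ℕ)
    (hB : ∀ p ∈ Q, B p ⊆ range p ∧ n ≤ (B p).card) (K₀ : ℤ) :
    ((Finset.Ico K₀ (K₀ + ((∏ p ∈ Q, p : ℕ) : ℤ))).filter
      (fun k => ∀ p ∈ Q, (k % (p : ℤ)).toNat ∉ B p)).card ≤ ∏ p ∈ Q, (p - n) := by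
  classical
  have hcard : (Finset.pi Q (fun p => range p \ B p)).card ≤ ∏ p ∈ Q, (p - n) := by
    rw [Finset.card_pi]
    refine Finset.prod_le_prod' fun p hp => ?_
    rw [Finset.card_sdiff_of_subset (hB p hp).1, card_range]
    have := (hB p hp).2
    omega
  refine le_trans ?_ hcard
  refine Finset.card_le_card_of_injOn (fun k => fun p _ => (k % (p : ℤ)).toNat) ?_ ?_
  · intro k hk
    rw [Finset.mem_coe, Finset.mem_filter] at hk
    rw [Finset.mem_coe, Finset.mem_pi]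
    intro p hp
    rw [Finset.mem_sdiff, Finset.mem_range]
    refine ⟨?_, hk.2 p hp⟩
    have hp0 : (0:ℤ) < p := by exact_mod_cast (hQ p hp).pos
    have h1 := Int.emod_nonneg k hp0.ne'
    have h2 := Int.emod_lt_of_pos k hp0
    show (k % (p : ℤ)).toNat < p
    omega
  · intro k hk l hl hkl
    rw [Finset.mem_coe, Finset.mem_filter, Finset.mem_Ico] at hk hl
    have hdvd : ∀ p ∈ Q, p ∣ (k - l).natAbs := by
      intro p hp
      have hp0 : (0:ℤ) < p := by exact_mod_cast (hQ p hp).pos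
      have h1 := congrFun (congrFun hkl p) hp
      simp only at h1
      have h2 := Int.emod_nonneg k hp0.ne'
      have h3 := Int.emod_nonneg l hp0.ne'
      have h4 : k % (p:ℤ) = l % (p:ℤ) := by omega
      have h5 : (p:ℤ) ∣ k - l := Int.ModEq.dvd (h4.symm : l ≡ k [ZMOD p])
      exact Int.natCast_dvd.1 h5
    have h6 : (∏ p ∈ Q, p) ∣ (k - l).natAbs :=
      Finset.prod_primes_dvd _ (fun p hp => (hQ p hp).prime) hdvd
    by_contra hne
    have h7 : (k - l).natAbs ≠ 0 := by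
      rw [Int.natAbs_ne_zero]
      exact sub_ne_zero.2 hne
    have h8 := Nat.le_of_dvd (Nat.pos_of_ne_zero h7) h6
    omega

open GaussianInt

/-- reduction modulo a degree one prime: `a + b i ↦ a + b t` -/
def phi (p : ℕ) (t : ZMod p) (z : GaussianInt) : ZMod p := (z.re : ZMod p) + (z.im : ZMod p) * t

lemma phi_add (p : ℕ) (t : ZMod p) (z w : GaussianInt) :
    phi p t (z + w) = phi p t z + phi p t w := by
  unfold phi
  rw [Zsqrtd.re_add, Zsqrtd.im_add]
  push_cast
  ring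

lemma phi_sub (p : ℕ) (t : ZMod p) (z w : GaussianInt) :
    phi p t (z - w) = phi p t z - phi p t w := by
  unfold phi
  rw [Zsqrtd.re_sub, Zsqrtd.im_sub]
  push_cast
  ring

lemma phi_mul_int (p : ℕ) (t : ZMod p) (k : ℤ) (w : GaussianInt) :
    phi p t ((k : GaussianInt) * w) = (k : ZMod p) * phi p t w := by
  unfold phi
  simp only [Zsqrtd.re_mul, Zsqrtd.im_mul, Zsqrtd.re_intCast, Zsqrtd.im_intCast]
  push_cast
  ring

lemma dvd_norm_of_phi {p : ℕ} {t : ZMod p} (ht : t ^ 2 = -1) {z : GaussianInt}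
    (h : phi p t z = 0) : (p : ℤ) ∣ z.norm := by
  rw [← ZMod.intCast_zmod_eq_zero_iff_dvd]
  unfold phi at h
  rw [Zsqrtd.norm_def]
  push_cast
  have h1 : (z.re : ZMod p) = - ((z.im : ZMod p) * t) := eq_neg_of_add_eq_zero_left h
  rw [h1]
  linear_combination (z.im : ZMod p) ^ 2 * ht

lemma norm_le_sq_of_prime {z : GaussianInt} (hz : Prime z) {p : ℕ} (hp : p.Prime)
    (h : (p : ℤ) ∣ z.norm) : z.norm ≤ (p : ℤ) ^ 2 := by
  -- `z` divides a rational prime `q`
  have h1 : z ∣ ((z.norm.natAbs : ℕ) : GaussianInt) := by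
    have h2 : ((z.norm.natAbs : ℕ) : GaussianInt) = z * star z := by
      rw [← Zsqrtd.norm_eq_mul_conj, GaussianInt.natCast_natAbs_norm]
    rw [h2]
    exact dvd_mul_right _ _
  have hn0 : z.norm.natAbs ≠ 0 := by
    rw [Int.natAbs_ne_zero]
    exact (GaussianInt.norm_pos.2 hz.ne_zero).ne'
  rw [← Nat.prod_primeFactorsList hn0, Nat.cast_list_prod] at h1
  obtain ⟨q', hq', hq2⟩ := hz.dvd_prod_iff.1 h1
  rw [List.mem_map] at hq'
  obtain ⟨q, hq, rfl⟩ := hq'
  have hqp : q.Prime := Nat.prime_of_mem_primeFactorsList hq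
  -- the norm of `z` divides `q ^ 2`
  obtain ⟨c, hc⟩ := hq2
  have h3 : ((q : ℕ) : GaussianInt).norm = z.norm * c.norm := by rw [hc, Zsqrtd.norm_mul]
  have h4 : ((q : ℕ) : GaussianInt).norm = (q:ℤ) * q := Zsqrtd.norm_natCast q
  rw [h4] at h3
  have h5 : (p:ℤ) ∣ (q:ℤ) * q := by
    rw [h3]; exact Dvd.dvd.mul_right h _
  have h6 : (p:ℤ) ∣ q := by
    rcases (Nat.prime_iff_prime_int.1 hp).dvd_or_dvd h5 with h | h <;> exact h
  have h7 : p = q := (Nat.prime_dvd_prime_iff_eq hp hqp).1 (Int.natCast_dvd_natCast.1 h6)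
  subst h7
  rw [sq, h3]
  have hz1 : 0 < z.norm := GaussianInt.norm_pos.2 hz.ne_zero
  have hp0 : (0:ℤ) < p := by exact_mod_cast hp.pos
  have hc1 : 1 ≤ c.norm := by
    by_contra hcon
    push Not at hcon
    have := GaussianInt.norm_nonneg c
    have hc0 : c.norm = 0 := by omega
    rw [hc0, mul_zero] at h3
    have : (0:ℤ) < (p:ℤ) * p := by positivity
    omega
  nlinarith

end Vale.Agent.P015
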