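import Vale.Agent.P015.Asym

/-!
# P015: no infinite walk in a thin neighbourhood of a line
-/

namespace Vale.Agent.P015

open Finset

lemma norm_pos_of_ne {w : GaussianInt} (hw : w ≠ 0) : 1 ≤ ‖GaussianInt.toComplex w‖ := by
  have h1 : (1:ℝ) ≤ ‖GaussianInt.toComplex w‖ ^ 2 := by
    rw [← norm_real]
    exact_mod_cast (GaussianInt.norm_pos.2 hw)
  by_contra hcon
  push Not at hcon
  have := pow_lt_one₀ (norm_nonneg (GaussianInt.toComplex w)) hcon (two_ne_zero)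
  linarith

/-- distance to a point of the line, in coordinates -/
lemma edist_le {z₀ w : GaussianInt} (hw : w ≠ 0) (z : GaussianInt) (k : ℤ) :
    edist z (z₀ + (k : GaussianInt) * w) ≤
      |along z₀ w z - k * ‖GaussianInt.toComplex w‖| + |away z₀ w z| := by
  have hw0 : 0 < ‖GaussianInt.toComplex w‖ := by linarith [norm_pos_of_ne hw]
  obtain ⟨W, hW⟩ : ∃ W, W = GaussianInt.toComplex w := ⟨_, rfl⟩
  obtain ⟨Z, hZ⟩ : ∃ Z, Z = GaussianInt.toComplex z - GaussianInt.toComplex z₀ := ⟨_, rfl⟩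
  unfold edist along away
  rw [← hZ, ← hW]
  rw [← hW] at hw0
  have h1 : GaussianInt.toComplex z - GaussianInt.toComplex (z₀ + (k : GaussianInt) * w) =
      Z - k * W := by
    rw [hZ, hW, map_add, map_mul, map_intCast]; ring
  rw [h1]
  have h2 : ‖Z - k * W‖ = ‖(Z - k * W) * (starRingEnd ℂ) W‖ / ‖W‖ := by
    rw [norm_mul, Complex.norm_conj, mul_div_cancel_right₀ _ hw0.ne']
  have h3 : (Z - k * W) * (starRingEnd ℂ) W = Z * (starRingEnd ℂ) W - ((k * ‖W‖ ^ 2 : ℝ) : ℂ) := by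
    rw [sub_mul, mul_assoc, Complex.mul_conj, Complex.normSq_eq_norm_sq]
    push_cast
    ring
  rw [h2, h3]
  have h4 := Complex.norm_le_abs_re_add_abs_im
    (Z * (starRingEnd ℂ) W - ((k * ‖W‖ ^ 2 : ℝ) : ℂ))
  rw [Complex.sub_re, Complex.sub_im, Complex.ofReal_re, Complex.ofReal_im, sub_zero] at h4
  have h5 := div_le_div_of_nonneg_right h4 hw0.le
  refine h5.trans (le_of_eq ?_)
  rw [add_div]
  congr 1
  · rw [← abs_of_pos hw0, ← abs_div, abs_of_pos hw0]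
    congr 1
    field_simp
  · rw [← abs_of_pos hw0, ← abs_div, abs_of_pos hw0]

lemma along_step {z₀ w : GaussianInt} (hw : w ≠ 0) (x y : GaussianInt) :
    |along z₀ w x - along z₀ w y| ≤ edist x y := by
  have hw0 : 0 < ‖GaussianInt.toComplex w‖ := by linarith [norm_pos_of_ne hw]
  unfold edist along
  rw [← sub_div, ← Complex.sub_re, ← sub_mul, abs_div, abs_of_pos hw0, div_le_iff₀ hw0]
  refine (Complex.abs_re_le_norm _).trans ?_
  rw [norm_mul, Complex.norm_conj]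
  refine mul_le_mul_of_nonneg_right (le_of_eq ?_) hw0.le
  congr 1
  ring

/-- the region: half width `exp ((log (2 + |u|)) ^ c)` at distance `u` along the line -/
def InRegion (c : ℝ) (z₀ w z : GaussianInt) : Prop :=
  |away z₀ w z| ≤ Real.exp ((Real.log (2 + |along z₀ w z|)) ^ c)

lemma region_numeric {D W u : ℝ} {n B : ℕ} (hD : 0 ≤ D) (hW : 0 ≤ W) (hB : 1 ≤ B)
    (hn : 2 + 4 * W + 2 * D + 4 ≤ n) (hu : |u| ≤ 2 * (2 * Real.exp ((n:ℝ) ^ B)) * W + D) :
    Real.exp ((Real.log (2 + |u|)) ^ (1 / (2 * ((B:ℝ) + 1)))) + D ≤ Real.exp n := by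
  have hn6 : (6:ℝ) ≤ n := by linarith
  have hn0 : (0:ℝ) ≤ n := by linarith
  have hnB : (n:ℝ) ≤ (n:ℝ) ^ B := le_self_pow₀ (by linarith) (by omega)
  have h1 : 2 + |u| ≤ Real.exp ((n:ℝ) ^ (B + 1)) := by
    have e1 : 1 ≤ Real.exp ((n:ℝ) ^ B) := Real.one_le_exp (by positivity)
    have e2 : 2 + |u| ≤ n * Real.exp ((n:ℝ) ^ B) := by
      have h3 : (2 + 4 * W + 2 * D + 4) * Real.exp ((n:ℝ) ^ B) ≤ n * Real.exp ((n:ℝ) ^ B) :=
        mul_le_mul_of_nonneg_right hn (by linarith)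
      have h4 : D * 1 ≤ D * Real.exp ((n:ℝ) ^ B) := mul_le_mul_of_nonneg_left e1 hD
      nlinarith
    have e3 : (n:ℝ) ≤ Real.exp n := by
      have := Real.add_one_le_exp (n:ℝ)
      linarith
    calc 2 + |u| ≤ n * Real.exp ((n:ℝ) ^ B) := e2
      _ ≤ Real.exp n * Real.exp ((n:ℝ) ^ B) :=
          mul_le_mul_of_nonneg_right e3 (Real.exp_pos _).le
      _ = Real.exp (n + (n:ℝ) ^ B) := by rw [← Real.exp_add]
      _ ≤ Real.exp ((n:ℝ) ^ (B + 1)) := by
          rw [Real.exp_le_exp, pow_succ]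
          nlinarith
  have h2 : Real.log (2 + |u|) ≤ (n:ℝ) ^ (B + 1) := by
    rw [Real.log_le_iff_le_exp (by positivity)]
    exact h1
  have h0 : 0 ≤ Real.log (2 + |u|) := Real.log_nonneg (by linarith [abs_nonneg u])
  have h3 : (Real.log (2 + |u|)) ^ (1 / (2 * ((B:ℝ) + 1))) ≤ √n := by
    calc (Real.log (2 + |u|)) ^ (1 / (2 * ((B:ℝ) + 1)))
        ≤ ((n:ℝ) ^ (B + 1)) ^ (1 / (2 * ((B:ℝ) + 1))) := Real.rpow_le_rpow h0 h2 (by positivity)
      _ = √n := by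
          rw [← Real.rpow_natCast, ← Real.rpow_mul hn0, Real.sqrt_eq_rpow]
          congr 1
          push_cast
          have : (B:ℝ) + 1 ≠ 0 := by positivity
          field_simp
  have h4 : √(n:ℝ) ≤ n / 2 := by
    rw [Real.sqrt_le_left (by linarith)]
    nlinarith
  have h5 : Real.exp ((Real.log (2 + |u|)) ^ (1 / (2 * ((B:ℝ) + 1)))) ≤ Real.exp (n / 2) :=
    Real.exp_le_exp.2 (h3.trans h4)
  have h6 : D ≤ Real.exp ((n:ℝ) / 2) := by
    have := Real.add_one_le_exp ((n:ℝ) / 2)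
    linarith
  have h7 : 2 ≤ Real.exp ((n:ℝ) / 2) := by
    have := Real.add_one_le_exp ((n:ℝ) / 2)
    linarith
  have h8 : Real.exp (n:ℝ) = Real.exp ((n:ℝ) / 2) * Real.exp ((n:ℝ) / 2) := by
    rw [← Real.exp_add]; congr 1; ring
  rw [h8]
  nlinarith

/-- one direction -/
theorem no_path_aux {D : ℝ} (hD : 0 ≤ D) {B n₀ : ℕ} (hB : 1 ≤ B)
    (hline : ∀ n : ℕ, n₀ ≤ n → ∀ w : GaussianInt, w ≠ 0 → w.norm ≤ (n : ℤ) ^ 3 →
      ∀ (z₀ : GaussianInt) (L : ℕ), Real.exp ((n : ℝ) ^ B) ≤ L → ∀ K₀ : ℤ,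
        ∃ k : ℤ, K₀ ≤ k ∧ k < K₀ + L ∧ ¬ Near D (Real.exp n) n (z₀ + (k : GaussianInt) * w))
    {z₀ w : GaussianInt} (hw : w ≠ 0) (f : ℕ → GP) (hf : Function.Injective f)
    (hstep : ∀ i, edist (f (i + 1)).1 (f i).1 ≤ D)
    (hreg : ∀ i, InRegion (1 / (2 * ((B:ℝ) + 1))) z₀ w (f i).1)
    (hunb : ∀ U : ℝ, ∃ i, U < along z₀ w (f i).1) : False := by
  classical
  obtain ⟨W, hW⟩ : ∃ W : ℝ, W = ‖GaussianInt.toComplex w‖ := ⟨_, rfl⟩
  have hW1 : 1 ≤ W := by rw [hW]; exact norm_pos_of_ne hw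
  obtain ⟨u₀, hu₀⟩ : ∃ u₀ : ℝ, u₀ = along z₀ w (f 0).1 := ⟨_, rfl⟩
  obtain ⟨n₁, hn₁⟩ := exists_nat_ge (max (2 + 4 * W + 2 * D + 4) (max |u₀| (W ^ 2)))
  obtain ⟨n, hn⟩ : ∃ n : ℕ, n = max n₀ n₁ := ⟨_, rfl⟩
  have hn0 : n₀ ≤ n := by rw [hn]; exact le_max_left _ _
  have hn1 : (n₁:ℝ) ≤ n := by
    have : n₁ ≤ n := by rw [hn]; exact le_max_right _ _
    exact_mod_cast this
  have hA1 : 2 + 4 * W + 2 * D + 4 ≤ n := ((le_max_left _ _).trans hn₁).trans hn1
  have hA2 : |u₀| ≤ n := (((le_max_left _ _).trans (le_max_right _ _)).trans hn₁).trans hn1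
  have hA3 : W ^ 2 ≤ n := (((le_max_right _ _).trans (le_max_right _ _)).trans hn₁).trans hn1
  have hnR : (6:ℝ) ≤ n := by linarith
  have hwn : w.norm ≤ (n:ℤ) ^ 3 := by
    have h1 : (w.norm : ℝ) ≤ (n:ℝ) ^ 3 := by
      rw [norm_real, ← hW]
      exact hA3.trans (le_self_pow₀ (by linarith) (by norm_num))
    exact_mod_cast h1
  obtain ⟨L, hL⟩ : ∃ L : ℕ, L = ⌈Real.exp ((n:ℝ) ^ B)⌉₊ := ⟨_, rfl⟩
  have hL1 : Real.exp ((n:ℝ) ^ B) ≤ L := by rw [hL]; exact Nat.le_ceil _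
  have hL2 : (L:ℝ) ≤ 2 * Real.exp ((n:ℝ) ^ B) := by
    have h1 : (L:ℝ) < Real.exp ((n:ℝ) ^ B) + 1 := by rw [hL]; exact Nat.ceil_lt_add_one (Real.exp_pos _).le
    have h2 : 1 ≤ Real.exp ((n:ℝ) ^ B) := Real.one_le_exp (by positivity)
    linarith
  obtain ⟨k, hk1, hk2, hk3⟩ := hline n hn0 w hw hwn z₀ L hL1 L
  have hk1' : (L:ℝ) ≤ k := by exact_mod_cast hk1
  have hk2' : (k:ℝ) ≤ 2 * L := by
    have : k ≤ 2 * (L:ℤ) := by omega
    exact_mod_cast this
  -- the level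
  obtain ⟨U, hU⟩ : ∃ U : ℝ, U = k * W := ⟨_, rfl⟩
  have hnB : (n:ℝ) ≤ (n:ℝ) ^ B := le_self_pow₀ (by linarith) (by omega)
  have hUu : u₀ < U := by
    have h1 : (n:ℝ) < Real.exp ((n:ℝ) ^ B) := by
      have := Real.add_one_le_exp ((n:ℝ) ^ B)
      linarith
    have h2 : (k:ℝ) * 1 ≤ k * W := mul_le_mul_of_nonneg_left hW1 (by linarith)
    have h3 := le_abs_self u₀
    rw [hU]
    linarith
  have hex : ∃ i, U ≤ along z₀ w (f i).1 := by
    obtain ⟨i, hi⟩ := hunb U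
    exact ⟨i, hi.le⟩
  obtain ⟨j, hj1, hj2⟩ : ∃ j, U ≤ along z₀ w (f j).1 ∧ ∀ i < j, along z₀ w (f i).1 < U :=
    ⟨Nat.find hex, Nat.find_spec hex, fun i hi => not_le.1 (Nat.find_min hex hi)⟩
  have hj0 : j ≠ 0 := by
    rintro rfl
    rw [← hu₀] at hj1
    linarith
  obtain ⟨i, rfl⟩ := Nat.exists_eq_succ_of_ne_zero hj0
  have hi := hj2 i (Nat.lt_succ_self i)
  have hst := (along_step (z₀ := z₀) hw (f (i + 1)).1 (f i).1).trans (hstep i)
  rw [abs_le] at hst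
  have hdiff : |along z₀ w (f (i + 1)).1 - U| ≤ D := by
    rw [abs_of_nonneg (sub_nonneg.2 hj1)]
    linarith [hst.2]
  have hU0 : 0 ≤ U := by
    rw [hU]
    exact mul_nonneg (by linarith [Nat.cast_nonneg (α := ℝ) L]) (by linarith)
  have habs : |along z₀ w (f (i + 1)).1| ≤ 2 * (2 * Real.exp ((n:ℝ) ^ B)) * W + D := by
    rw [abs_of_nonneg (hU0.trans hj1)]
    rw [abs_le] at hdiff
    have h1 : U ≤ 2 * (2 * Real.exp ((n:ℝ) ^ B)) * W := by
      rw [hU]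
      exact mul_le_mul_of_nonneg_right (by linarith) (by linarith)
    linarith [hdiff.2]
  have hnum := region_numeric hD (by linarith : (0:ℝ) ≤ W) hB hA1 habs
  have hr := hreg (i + 1)
  unfold InRegion at hr
  have hdist := edist_le (z₀ := z₀) hw (f (i + 1)).1 k
  rw [← hW, ← hU] at hdist
  apply hk3
  refine ⟨f (i + 1), by linarith, (Finset.range n).image f, ?_, ?_⟩
  · rw [Finset.card_image_of_injective _ hf, Finset.card_range]
  · intro v hv
    rw [Finset.mem_image] at hv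
    obtain ⟨l, _, rfl⟩ := hv
    have hadj : ∀ m, (GD D).Reachable (f 0) (f m) := by
      intro m
      induction m with
      | zero => exact SimpleGraph.Reachable.refl _
      | succ m ih =>
        refine ih.trans (SimpleGraph.Adj.reachable ?_)
        refine ⟨fun h => ?_, ?_⟩
        · have := hf h
          omega
        · have := hstep m
          unfold edist at this ⊢
          rwa [norm_sub_rev]
    exact (hadj (i + 1)).symm.trans (hadj l)

lemma along_neg (z₀ w z : GaussianInt) : along z₀ (-w) z = - along z₀ w z := by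
  unfold along
  rw [map_neg, map_neg, norm_neg, mul_neg, Complex.neg_re, neg_div]

lemma away_neg (z₀ w z : GaussianInt) : away z₀ (-w) z = - away z₀ w z := by
  unfold away
  rw [map_neg, map_neg, norm_neg, mul_neg, Complex.neg_im, neg_div]

/-- **No infinite walk in a thin neighbourhood of a line.** -/
theorem no_path {D : ℝ} (hD : 0 ≤ D) : ∃ c : ℝ, 0 < c ∧ ∀ z₀ w : GaussianInt, w ≠ 0 →
    ¬ ∃ f : ℕ → GP, Function.Injective f ∧ (∀ i, edist (f (i + 1)).1 (f i).1 ≤ D) ∧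
      ∀ i, |away z₀ w (f i).1| ≤ Real.exp ((Real.log (2 + |along z₀ w (f i).1|)) ^ c) := by
  classical
  obtain ⟨B, n₀, hB, hn₀, hline⟩ := line_count hD (zero_le_one (α := ℝ))
  have hline' : ∀ n : ℕ, n₀ ≤ n → ∀ w : GaussianInt, w ≠ 0 → w.norm ≤ (n : ℤ) ^ 3 →
      ∀ (z₀ : GaussianInt) (L : ℕ), Real.exp ((n : ℝ) ^ B) ≤ L → ∀ K₀ : ℤ,
        ∃ k : ℤ, K₀ ≤ k ∧ k < K₀ + L ∧ ¬ Near D (Real.exp n) n (z₀ + (k : GaussianInt) * w) := by
    intro n hn w hw hwn z₀ L hL K₀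
    have h := hline n hn w hw hwn z₀ L hL K₀
    rw [one_mul] at h
    by_contra hcon
    push Not at hcon
    have h1 : (Finset.Ico K₀ (K₀ + (L:ℤ))).filter
        (fun k : ℤ => Near D (Real.exp n) n (z₀ + (k : GaussianInt) * w)) =
        Finset.Ico K₀ (K₀ + (L:ℤ)) := by
      rw [Finset.filter_eq_self]
      intro k hk
      rw [Finset.mem_Ico] at hk
      exact hcon k hk.1 hk.2
    rw [h1, Int.card_Ico] at h
    have h2 : (K₀ + (L:ℤ) - K₀).toNat = L := by omega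
    rw [h2] at h
    have hL0 : (0:ℝ) < L := (Real.exp_pos _).trans_le hL
    have hn1 : (1:ℝ) ≤ n := by exact_mod_cast (by omega : 1 ≤ n)
    have h3 : Real.exp (-(n:ℝ)) < 1 := by
      rw [Real.exp_lt_one_iff]; linarith
    have h4 : Real.exp (-(n:ℝ)) * L < 1 * L := mul_lt_mul_of_pos_right h3 hL0
    linarith
  refine ⟨1 / (2 * ((B:ℝ) + 1)), by positivity, ?_⟩
  rintro z₀ w hw ⟨f, hf, hstep, hreg⟩
  by_cases h1 : ∀ U : ℝ, ∃ i, U < along z₀ w (f i).1
  · exact no_path_aux hD hB hline' hw f hf hstep hreg h1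
  by_cases h2 : ∀ U : ℝ, ∃ i, U < along z₀ (-w) (f i).1
  · refine no_path_aux hD hB hline' (neg_ne_zero.2 hw) f hf hstep (fun i => ?_) h2
    have := hreg i
    unfold InRegion
    rwa [away_neg, along_neg, abs_neg, abs_neg]
  push Not at h1 h2
  obtain ⟨U₁, hU₁⟩ := h1
  obtain ⟨U₂, hU₂⟩ := h2
  -- the walk is bounded
  obtain ⟨U, hU⟩ : ∃ U, U = max U₁ U₂ := ⟨_, rfl⟩
  have hbd : ∀ i, |along z₀ w (f i).1| ≤ U := by
    intro i
    rw [abs_le]
    have a1 := hU₁ i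
    have a2 := hU₂ i
    rw [along_neg] at a2
    have a3 := le_max_left U₁ U₂
    have a4 := le_max_right U₁ U₂
    rw [← hU] at a3 a4
    constructor <;> linarith
  have hU0 : 0 ≤ U := (abs_nonneg _).trans (hbd 0)
  obtain ⟨V, hV⟩ : ∃ V, V = Real.exp ((Real.log (2 + U)) ^ (1 / (2 * ((B:ℝ) + 1)))) := ⟨_, rfl⟩
  have hbd2 : ∀ i, edist (f i).1 z₀ ≤ U + V := by
    intro i
    have h3 := edist_le (z₀ := z₀) hw (f i).1 0
    rw [Int.cast_zero, zero_mul, add_zero, Int.cast_zero, zero_mul, sub_zero] at h3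
    refine h3.trans (add_le_add (hbd i) ((hreg i).trans ?_))
    rw [hV, Real.exp_le_exp]
    refine Real.rpow_le_rpow (Real.log_nonneg (by linarith [abs_nonneg (along z₀ w (f i).1)]))
      (Real.log_le_log (by positivity) (by linarith [hbd i])) (by positivity)
  have hfin : (Set.range (fun i => (f i).1 - z₀)).Finite := by
    refine Set.Finite.subset (Finset.finite_toSet (ball (U + V))) ?_
    rintro _ ⟨i, rfl⟩
    rw [Finset.mem_coe, mem_ball, ← edist_eq]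
    exact hbd2 i
  have hinj : Function.Injective (fun i => (f i).1 - z₀) := by
    intro i j hij
    exact hf (Subtype.ext (sub_left_injective hij))
  exact Set.infinite_range_of_injective hinj hfin

end Vale.Agent.P015
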